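import Vale.Agent.P261Z.X.Defs

/-!
# P261, block X: the primitives of `T_j[x_b] / (x_b ^ M)`

`coTr Z ι M`: if `T` represents pairs (point of `E`, series) then `Tr T ι M` represents pairs
(point of `Tr E ι M`, series). `pv`: the `G`-isomorphism `VX (-w) → Prim (Tr T_j ι M) w`.
-/

open Vale.Agent.P251 Vale.Agent.P251.F Vale.Agent.P251.S Vale.Agent.P251.C Vale.Agent.P251.M
  Vale.Agent.P261Z.T2 Vale.Agent.P261Z.T1

namespace Vale.Agent.P261Z.X

section copt

variable {E T B : Type} [CommRing E] [CommRing T] [CommRing B] {ι : Type} {M : ℕ}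

theorem nev1_nev1 {ξ : B} (h : ξ ^ M = 0) (f g : InvSeries B) :
    nev1 (nev1 ξ g.val) f.val = nev1 ξ (f * g).val := by
  rw [InvSeries.mul_val, nev1_psubst ⟨M, h⟩ g.cc]

theorem nev1_one {ξ : B} (h : ξ ^ M = 0) : nev1 ξ (1 : InvSeries B).val = ξ := nev1_X ⟨M, h⟩

theorem map_sub_x (ψ : Tr T ι M →+* B) (φ : E →+* T) (f : InvSeries T) (b : ι) :
    ψ (sub ι M φ f (Tr.x E M b)) =
      nev1 (ψ (Tr.x T M b)) (InvSeries.map (ψ.comp (Tr.C ι M)) f).val := by
  rw [sub_x, Tr.map_nev1 _ (Tr.x_pow b), InvSeries.map_map]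

variable (Z : CoPt E T) (ι M)

/-- the classifying map of a pair -/
noncomputable def coLift (x : Tr E ι M →+* B) (g : InvSeries B) : Tr T ι M →+* B :=
  Tr.lift (Z.lift (x.comp (Tr.C ι M)) g) (fun b => nev1 (x (Tr.x E M b)) g.val)
    fun b => Tr.nev1_pow (Tr.map_x_pow x b) g

theorem coLift_C (x : Tr E ι M →+* B) (g : InvSeries B) :
    (coLift ι M Z x g).comp (Tr.C ι M) = Z.lift (x.comp (Tr.C ι M)) g := Tr.lift_comp_C _ _ _

theorem coLift_x (x : Tr E ι M →+* B) (g : InvSeries B) (b : ι) :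
    coLift ι M Z x g (Tr.x T M b) = nev1 (x (Tr.x E M b)) g.val := Tr.lift_x _ _ _ _

/-- `Tr T ι M` represents pairs (point of `Tr E ι M`, series), `y_b = f⁻¹ (x_b)`. -/
noncomputable def coTr : CoPt (Tr E ι M) (Tr T ι M) where
  ι := sub ι M Z.ι Z.f⁻¹
  f := InvSeries.map (Tr.C ι M) Z.f
  lift x g := coLift ι M Z x g
  lift_ι x g := Tr.hom_ext
    (by rw [RingHom.comp_assoc, sub_comp_C, ← RingHom.comp_assoc, coLift_C, Z.lift_ι])
    fun b => by
      rw [RingHom.comp_apply, map_sub_x, coLift_x, coLift_C, map_inv, Z.lift_f,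
        nev1_nev1 (Tr.map_x_pow x b), inv_mul_cancel, nev1_one (Tr.map_x_pow x b)]
  lift_f x g := by rw [InvSeries.map_map, coLift_C, Z.lift_f]
  ext ψ ψ' h1 h2 := by
    rw [InvSeries.map_map, InvSeries.map_map] at h2
    refine Tr.hom_ext (Z.ext _ _ ?_ h2) fun b => ?_
    · rw [RingHom.comp_assoc, RingHom.comp_assoc, ← sub_comp_C Z.ι Z.f⁻¹, ← RingHom.comp_assoc,
        h1, RingHom.comp_assoc]
    · have h3 := RingHom.congr_fun h1 (Tr.x E M b)
      rw [RingHom.comp_apply, RingHom.comp_apply, map_sub_x, map_sub_x, map_inv, map_inv,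
        h2] at h3
      have h4 := congrArg (fun ξ => nev1 ξ (InvSeries.map (ψ'.comp (Tr.C ι M)) Z.f).val) h3
      simp only [nev1_nev1 (Tr.map_x_pow _ b), mul_inv_cancel, nev1_one (Tr.map_x_pow _ b)] at h4
      exact h4

theorem coTr_ι : (coTr ι M Z).ι = sub ι M Z.ι Z.f⁻¹ := rfl

theorem coTr_f : (coTr ι M Z).f = InvSeries.map (Tr.C ι M) Z.f := rfl

theorem coTr_e_C : (coTr ι M Z).e.comp (Tr.C ι M) = (Tr.C ι M).comp Z.e := by
  change (coLift ι M Z (RingHom.id _) 1).comp (Tr.C ι M) = _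
  rw [coLift_C, RingHom.id_comp, CoPt.e, Z.comp_lift, map_one, RingHom.comp_id]

theorem coTr_e_x (b : ι) : (coTr ι M Z).e (Tr.x T M b) = Tr.x E M b := by
  change coLift ι M Z (RingHom.id _) 1 (Tr.x T M b) = _
  rw [coLift_x, RingHom.id_apply, nev1_one (Tr.x_pow b)]

theorem coTr_e : (coTr ι M Z).e = Tr.map ι M Z.e :=
  Tr.hom_ext (by rw [coTr_e_C, Tr.mapP_comp_C]) fun b => by rw [coTr_e_x, Tr.mapP_x]; rfl

theorem coTr_ser (s : T →+* T) :
    (coTr ι M Z).ser (Tr.map ι M s) = InvSeries.map (Tr.C ι M) (Z.ser s) := by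
  rw [CoPt.ser, CoPt.ser, coTr_f, coTr_e, InvSeries.map_map, InvSeries.map_map, Tr.mapP_comp,
    Tr.mapP_comp_C]

theorem coTr_phi (s : T →+* T) :
    (coTr ι M Z).phi (Tr.map ι M s) = sub ι M (Z.phi s) (Z.ser s)⁻¹ := by
  rw [CoPt.phi, coTr_ι, coTr_e, ← sub_one, ← sub_one, sub_comp, sub_comp, map_one, mul_one,
    mul_one, map_inv]
  rfl

variable {Z} in
theorem isCo_coTr [LawRing T] {FE : Law E} (H : Z.IsCo FE) :
    (coTr ι M Z).IsCo (FE.map (Tr.C ι M)) where
  law := by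
    rw [Tr.law_eq, H.law, CoPt.law, CoPt.law, InvSeries.map_smul, Law.map_map, Law.map_map,
      coTr_ι, sub_comp_C, coTr_f]
  act B _ g ψ := by
    apply (coTr ι M Z).ext
    · rw [CoPt.act_ι, coTr_ι]
      refine Tr.hom_ext ?_ fun b => ?_
      · rw [RingHom.comp_assoc, sub_comp_C, ← RingHom.comp_assoc, Tr.act_comp_C, H.act,
          CoPt.act_ι, RingHom.comp_assoc, RingHom.comp_assoc, sub_comp_C]
      · rw [RingHom.comp_apply, RingHom.comp_apply, map_sub_x, map_sub_x, Tr.act_x,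
          Tr.act_comp_C, H.act, map_inv, map_inv, CoPt.act_f, nev1_nev1 (Tr.map_x_pow ψ b),
          mul_inv_rev, inv_mul_cancel_right]
    · rw [CoPt.act_f, coTr_f, InvSeries.map_map, InvSeries.map_map, Tr.act_comp_C, H.act,
        CoPt.act_f]

end copt

section LT

variable {p n : ℕ} [Fact p.Prime] {k : Type} [Field k] (D : LTD p n k) (j : ℕ) (ι : Type) (M : ℕ)

/-- comparison of the two descriptions of the twisted action -/
noncomputable def twCmp : TwAct.Hom (twX D j ι M)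
    ((coTr ι M (D.coPt j)).twist D.GG (isCo_coTr ι M (D.isCo j))) where
  r := RingHom.id _
  phi g x := (RingHom.congr_fun
    (coTr_phi ι M (D.coPt j) (MulSemiringAction.toRingHom D.GG (D.TT j) g)) x).symm
  a g := by
    have h := congrArg InvSeries.lead
      (coTr_ser ι M (D.coPt j) (MulSemiringAction.toRingHom D.GG (D.TT j) g))
    rw [InvSeries.lead_map] at h
    exact Units.ext (congrArg Units.val h).symm

/-- The isomorphism `E_j[y_b] / (y_b ^ M) ω^(-w) → Prim (T_j[x_b] / (x_b ^ M)) w`. -/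
noncomputable def pv (w : ℤ) : VX D j ι M (-w) →+[D.GG] Prim (Tr (D.TT j) ι M) w :=
  ((coTr ι M (D.coPt j)).primHom (isCo_coTr ι M (D.isCo j)) w D.GG).comp
    ((twCmp D j ι M).map (-w))

theorem pv_bijective (w : ℤ) : Function.Bijective (pv D j ι M w) :=
  (coTr ι M (D.coPt j)).primHom_bijective (isCo_coTr ι M (D.isCo j)) w (G := D.GG)

theorem pv_val (w : ℤ) (y : VX D j ι M (-w)) : (pv D j ι M w y).1.1 =
    MvPolynomial.C ((coTr ι M (D.coPt j)).emb (-w) ((twX D j ι M).val (-w) y)) := rfl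

theorem pv_red (w : ℤ) {j j' : ℕ} (hj : j ≤ j') (y : VX D j' ι M (-w)) :
    redP ι M (D.isLawHom_redT hj) (fun γ t => D.redT_smul hj γ t) w (pv D j' ι M w y) =
      pv D j ι M w (redV D ι M (-w) hj y) := by
  apply Subtype.ext
  apply Subtype.ext
  change Cob.mapRing (Tr.map ι M (D.redT hj)) 0 (pv D j' ι M w y).1.1 = _
  rw [pv_val, pv_val, Cob.mapRing, MvPolynomial.map_C]
  congr 1
  refine (coTr ι M (D.coPt j)).map_emb (coTr ι M (D.coPt j')) _ (Tr.map ι M (twR D hj).r) ?_ ?_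
    (-w) _
  · have h1 : (D.redT hj).comp (D.coPt j').ι = (D.coPt j).ι.comp (twR D hj).r :=
      D.redT_comp_inc hj
    have h2 : InvSeries.map (D.redT hj) (D.coPt j').f = (D.coPt j).f := D.map_redT_ser hj
    rw [coTr_ι, coTr_ι, ← sub_one, ← sub_one, sub_comp, sub_comp, h1, map_inv, h2, map_one,
      mul_one, one_mul]
  · have h2 : InvSeries.map (D.redT hj) (D.coPt j').f = (D.coPt j).f := D.map_redT_ser hj
    rw [coTr_f, coTr_f, InvSeries.map_map, Tr.mapP_comp_C, ← InvSeries.map_map, h2]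

variable {ι} [Fintype ι] [DecidableEq ι]

theorem pv_eps (c : MonoidAlgebra ℤ (Equiv.Perm ι)) (w : ℤ) (y : VX D j ι M (-w)) :
    epsP D.GG (D.TT j) M c w (pv D j ι M w y) = pv D j ι M w (epsV D j M c (-w) y) := by
  apply Subtype.ext
  apply Subtype.ext
  change epsC (D.TT j) M c 0 (pv D j ι M w y).1.1 = _
  rw [pv_val, pv_val, val_epsV, epsC_apply, epsT_apply, map_sum, map_sum]
  refine Finset.sum_congr rfl fun σ _ => ?_
  rw [map_zsmul, map_zsmul, Cob.mapRing, MvPolynomial.map_C]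
  congr 2
  refine (coTr ι M (D.coPt j)).map_emb (coTr ι M (D.coPt j)) _ (Tr.perm (D.EJ j) M σ) ?_ ?_ (-w) _
  · exact perm_comp_sub _ _ _
  · rw [coTr_f, InvSeries.map_map, Tr.mapP_comp_C, RingHom.comp_id]

end LT

end Vale.Agent.P261Z.X
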