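import Vale.Agent.P261Z.X.Bas
import Vale.Agent.P261Z.X.Copt

/-!
# P261, block X: the modules `VX` in coordinates

* `cf_epsT`, `epsT_mul`, `epsV_epsV`: the group ring acts through the matrices `JM.mat`;
* `cf_sub`, `cf_smul_VX`: the twisted action in coordinates, `rho f b a`;
* `VX` is finite, discrete and killed by `p`;
* `bar c`: the antipode, `IsIdem.bar`.
-/

open Vale.Agent.P251 Vale.Agent.P251.F Vale.Agent.P251.S Vale.Agent.P251.C Vale.Agent.P251.M
  Vale.Agent.P261Z.T2 Vale.Agent.P261Z.T1 Vale.Agent.P261Z.JM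

namespace Vale.Agent.P261Z.X

section eps

variable {N N' : Type} [CommRing N] [CommRing N'] {ι : Type} [Fintype ι] [DecidableEq ι] {M : ℕ}

theorem cf_perm (σ : Equiv.Perm ι) (b : ι → Fin M) (y : Tr N ι M) :
    cf b (Tr.perm N M σ y) = cf (b ∘ σ) y := by
  have h : Tr.perm N M σ y = ∑ t : ι → Fin M, Tr.C ι M (cf (t ∘ σ) y) * Tr.mon N t := by
    conv_lhs => rw [← sum_cf y]
    rw [map_sum]
    refine (Fintype.sum_equiv (σ.symm.arrowCongr (Equiv.refl (Fin M))) _ _ fun t => ?_).symm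
    rw [map_mul, Tr.mapP_C]
    exact congrArg _ (Tr.mapP_mon (RingHom.id N) σ t).symm
  rw [h]
  exact cf_sum b fun t => cf (t ∘ σ) y

theorem cf_epsT (c : MonoidAlgebra ℤ (Equiv.Perm ι)) (b : ι → Fin M) (y : Tr N ι M) :
    cf b (epsT N M c y) = ∑ a, mat c b a • cf a y := by
  rw [epsT_apply, map_sum]
  simp only [map_zsmul, cf_perm, mat, Finset.sum_smul, ite_smul, zero_smul]
  rw [Finset.sum_comm]
  simp only [Finset.sum_ite_eq, Finset.mem_univ, if_true]

theorem epsT_mul (c c' : MonoidAlgebra ℤ (Equiv.Perm ι)) (y : Tr N ι M) :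
    epsT N M (c * c') y = epsT N M c (epsT N M c' y) := by
  refine cf_ext fun b => ?_
  simp only [cf_epsT, mat_mul, Finset.sum_smul, Finset.smul_sum, smul_smul]
  exact Finset.sum_comm

theorem epsT_smul (m : ℤ) (c : MonoidAlgebra ℤ (Equiv.Perm ι)) (y : Tr N ι M) :
    epsT N M (m • c) y = m • epsT N M c y := by
  refine cf_ext fun b => ?_
  simp only [cf_epsT, map_zsmul, mat_smul, Finset.smul_sum, smul_smul]

theorem epsT_C_mul (c : MonoidAlgebra ℤ (Equiv.Perm ι)) (a : N) (y : Tr N ι M) :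
    epsT N M c (Tr.C ι M a * y) = Tr.C ι M a * epsT N M c y := by
  refine cf_ext fun b => ?_
  simp only [cf_epsT, cf_C_mul, Finset.mul_sum, mul_smul_comm]

theorem map_epsT (φ : N →+* N') (c : MonoidAlgebra ℤ (Equiv.Perm ι)) (y : Tr N ι M) :
    Tr.map ι M φ (epsT N M c y) = epsT N' M c (Tr.map ι M φ y) := by
  refine cf_ext fun b => ?_
  simp only [cf_epsT, cf_map, map_sum, map_zsmul]

instance [Finite N] : Finite (Tr N ι M) :=
  Finite.of_injective (fun (y : Tr N ι M) (t : ι → Fin M) => cf t y)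
    fun _ _ h => cf_ext fun t => congrFun h t

/-- The matrix of `y_i ↦ f (y_i)` on the monomials. -/
noncomputable def rho (f : InvSeries N) (b a : ι → Fin M) : N :=
  ∏ i, PowerSeries.coeff (b i : ℕ) (f.val ^ (a i : ℕ))

theorem sub_mon (φ : N →+* N') (f : InvSeries N') (a : ι → Fin M) :
    sub ι M φ f (Tr.mon N a) = ∑ b, Tr.C ι M (rho f b a) * Tr.mon N' b := by
  have h : ∀ i, sub ι M φ f (Tr.x N M i) ^ (a i : ℕ) =
      ∑ m : Fin M, Tr.C ι M (PowerSeries.coeff (m : ℕ) (f.val ^ (a i : ℕ))) *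
        Tr.x N' M i ^ (m : ℕ) := fun i => by
    have h1 := Q.nev_pow (A := Tr N' ι M) (a := fun _ : Unit => Tr.x N' M i)
      (fun _ => ⟨M, Tr.x_pow i⟩) (InvSeries.map (Tr.C ι M) f).val (a i : ℕ)
    rw [sub_x]
    refine h1.symm.trans ((nev1_eq_sum (Tr.x_pow i) _).trans ?_)
    rw [Finset.sum_range]
    refine Finset.sum_congr rfl fun m _ => ?_
    rw [InvSeries.map_val, ← map_pow, PowerSeries.coeff_map, smul_eq_mul]
  rw [Tr.mon, map_prod]
  simp only [map_pow, h]
  rw [Finset.prod_univ_sum, Fintype.piFinset_univ]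
  refine Finset.sum_congr rfl fun b _ => ?_
  rw [Finset.prod_mul_distrib, rho, map_prod, Tr.mon]

theorem cf_sub (φ : N →+* N') (f : InvSeries N') (b : ι → Fin M) (y : Tr N ι M) :
    cf b (sub ι M φ f y) = ∑ a, rho f b a * φ (cf a y) := by
  conv_lhs => rw [← sum_cf y]
  rw [map_sum, map_sum]
  refine Finset.sum_congr rfl fun a _ => ?_
  rw [map_mul, sub_C, cf_C_mul, sub_mon, cf_sum, mul_comm]

/-- The antipode of the group ring. -/
noncomputable def bar (c : MonoidAlgebra ℤ (Equiv.Perm ι)) : MonoidAlgebra ℤ (Equiv.Perm ι) :=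
  ∑ σ : Equiv.Perm ι, MonoidAlgebra.single σ⁻¹ (c.coeff σ)

theorem coeff_bar (c : MonoidAlgebra ℤ (Equiv.Perm ι)) (σ : Equiv.Perm ι) :
    (bar c).coeff σ = c.coeff σ⁻¹ := by
  rw [bar, MonoidAlgebra.coeff_sum, Finsupp.finsetSum_apply, Finset.sum_eq_single σ⁻¹]
  · simp
  · intro τ _ h
    rw [MonoidAlgebra.coeff_single, Finsupp.single_eq_of_ne]
    exact fun e => h (by rw [e, inv_inv])
  · exact fun h => absurd (Finset.mem_univ _) h

theorem mat_bar {κ : Type} [DecidableEq κ] (c : MonoidAlgebra ℤ (Equiv.Perm ι)) (a b : ι → κ) :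
    mat (bar c) a b = mat c b a := by
  refine Fintype.sum_equiv (Equiv.inv _) _ _ fun σ => ?_
  rw [coeff_bar]
  refine if_congr ⟨fun h => ?_, fun h => ?_⟩ rfl rfl
  · rw [← h]
    exact funext fun i => congrArg a (σ.apply_symm_apply i)
  · rw [← h]
    exact funext fun i => congrArg b (σ.symm_apply_apply i)

theorem bar_mul (c c' : MonoidAlgebra ℤ (Equiv.Perm ι)) : bar (c * c') = bar c' * bar c := by
  ext σ
  rw [coeff_bar, MonoidAlgebra.coeff_mul_apply_left, MonoidAlgebra.coeff_mul_apply_right,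
    Finsupp.sum_fintype _ _ (fun _ => zero_mul _), Finsupp.sum_fintype _ _ (fun _ => mul_zero _)]
  refine Fintype.sum_equiv (Equiv.inv _) _ _ fun τ => ?_
  simp only [coeff_bar, Equiv.inv_apply, inv_inv, mul_inv_rev, mul_comm (c.coeff τ)]

theorem isIdem_bar {p : ℕ} {c : MonoidAlgebra ℤ (Equiv.Perm ι)} {μ : ℤ} (h : IsIdem p M c μ) :
    IsIdem p M (bar c) μ where
  unit := h.unit
  sq := by
    rw [← bar_mul, h.sq]
    ext σ
    simp only [coeff_bar, MonoidAlgebra.coeff_smul, Finsupp.smul_apply]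
  kill κ _ a b hb := by
    rw [mat_bar]
    by_cases hab : ∃ σ : Equiv.Perm ι, b ∘ σ = a
    · obtain ⟨σ, rfl⟩ := hab
      refine h.kill κ _ _ (lt_of_le_of_lt (Finset.card_le_card fun x hx => ?_) hb)
      obtain ⟨i, -, rfl⟩ := Finset.mem_image.1 hx
      exact Finset.mem_image_of_mem _ (Finset.mem_univ _)
    · exact Finset.sum_eq_zero fun σ _ => if_neg fun h1 => hab ⟨σ, h1⟩
  ne := by
    obtain ⟨a, b, hab⟩ := h.ne
    exact ⟨b, a, by rwa [mat_bar]⟩
  trace := by simpa only [mat_bar] using h.trace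

end eps

section LT

variable {p n : ℕ} [Fact p.Prime] {k : Type} [Field k] (D : LTD p n k) (j : ℕ) {ι : Type}
  [Fintype ι] [DecidableEq ι] {M : ℕ} (w : ℤ)

instance : DiscMod D.GG (VX D j ι M w) where
  isOpen_stab m := by
    have : DiscMod D.GG (((coTr ι M (D.coPt j)).twist D.GG (isCo_coTr ι M (D.isCo j))).Wt w) :=
      (coTr ι M (D.coPt j)).discMod_wt (G := D.GG) (fun g => (coTr ι M (D.coPt j)).comm_of_lawAction (isCo_coTr ι M (D.isCo j)) g) w
    have h := DiscMod.isOpen_stab (G := D.GG) ((twCmp D j ι M).map w m)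
    convert h using 1
    ext g
    change g • m = m ↔ g • (twCmp D j ι M).map w m = (twCmp D j ι M).map w m
    rw [← map_smul]
    rfl

omit [Fintype ι] [DecidableEq ι] in
theorem p_smul_VX (y : VX D j ι M w) : p • y = 0 :=
  (twX D j ι M).nsmul_eq_zero w (D.p_eq_zero' ((Tr.C ι M).comp (algebraMap k (D.EJ j)))) y

theorem cf_smul_VX (g : D.GG) (b : ι → Fin M) (y : VX D j ι M w) :
    cf b ((twX D j ι M).val w (g • y)) = (((tw D j).a g ^ w : (D.EJ j)ˣ) : D.EJ j) *
      ∑ a, rho (serX D j g) b a * (tw D j).phi g (cf a ((twX D j ι M).val w y)) := by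
  rw [TwAct.smul_def, ← cf_sub, ← cf_C_mul]
  congr 2
  change ((Units.map _ ((tw D j).a g) ^ w : (Tr (D.EJ j) ι M)ˣ) : Tr (D.EJ j) ι M) = _
  rw [← map_zpow]
  rfl

theorem cf_epsV (c : MonoidAlgebra ℤ (Equiv.Perm ι)) (b : ι → Fin M) (y : VX D j ι M w) :
    cf b ((twX D j ι M).val w (epsV D j M c w y)) =
      ∑ a, mat c b a • cf a ((twX D j ι M).val w y) := by
  rw [val_epsV, cf_epsT]

theorem epsV_mul (c c' : MonoidAlgebra ℤ (Equiv.Perm ι)) (y : VX D j ι M w) :
    epsV D j M (c * c') w y = epsV D j M c w (epsV D j M c' w y) :=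
  ((twX D j ι M).val w).injective (by rw [val_epsV, val_epsV, val_epsV, epsT_mul])

/-- A quasi-idempotent with `μ ≡ 1` acts by an idempotent. -/
theorem epsV_epsV {c : MonoidAlgebra ℤ (Equiv.Perm ι)} {μ : ℤ} (h : c * c = μ • c)
    (hμ : (p : ℤ) ∣ μ - 1) (y : VX D j ι M w) :
    epsV D j M c w (epsV D j M c w y) = epsV D j M c w y := by
  obtain ⟨m, hm⟩ := hμ
  have h1 : epsV D j M (μ • c) w y = μ • epsV D j M c w y :=
    ((twX D j ι M).val w).injective (by rw [val_epsV, map_zsmul, val_epsV, epsT_smul])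
  rw [← epsV_mul, h, h1, eq_add_of_sub_eq hm, add_smul, one_smul, mul_comm, mul_smul,
    natCast_zsmul, p_smul_VX, smul_zero, zero_add]

theorem redV_epsV (c : MonoidAlgebra ℤ (Equiv.Perm ι)) {j j' : ℕ} (hj : j ≤ j')
    (y : VX D j' ι M w) :
    redV D ι M w hj (epsV D j' M c w y) = epsV D j M c w (redV D ι M w hj y) :=
  ((twX D j ι M).val w).injective (by
    rw [val_epsV]
    exact (congrArg _ (val_epsV D j' M c w y)).trans (map_epsT _ c _))

theorem cf_redV {j j' : ℕ} (hj : j ≤ j') (b : ι → Fin M) (y : VX D j' ι M w) :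
    cf b ((twX D j ι M).val w (redV D ι M w hj y)) =
      EE.red k (n - 1) hj (cf b ((twX D j' ι M).val w y)) := cf_map (twR D hj).r b _

theorem redV_surjective {j j' : ℕ} (hj : j ≤ j') : Function.Surjective (redV D ι M w hj) :=
  map_surjective (φ := (twR D hj).r) (EE.red_surjective k (n - 1) hj)

theorem finite_VX : Finite (VX D j ι M w) := by
  have _ := D.finite
  have : Finite (D.EJ j) := Module.finite_of_finite k
  infer_instance

end LT

end Vale.Agent.P261Z.X
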