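import Vale.Agent.P261Z.JM.Main

/-!
# P261, block X: the argument of J. Smith for matrix cocycles

If a norm `∑ g, ρ g` has a unit entry and `c` kills the tensor powers of smaller rank, then the
matrix of `c` on the tensor power is a norm for the conjugation action (`smith_hg`).
-/

open Finset Vale.Agent.P261Z.JM

namespace Vale.Agent.P261Z.X

variable {E E' : Type} [CommRing E] [CommRing E'] {κ ι : Type} [Fintype κ] [DecidableEq κ]
  [Fintype ι] [DecidableEq ι]

/-- the tensor product of matrices -/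
def tpi (A : ι → Matrix κ κ E) : Matrix (ι → κ) (ι → κ) E :=
  Matrix.of fun b a => ∏ i, A i (b i) (a i)

omit [Fintype κ] [DecidableEq κ] [DecidableEq ι] in
theorem tpi_apply (A : ι → Matrix κ κ E) (b a : ι → κ) : tpi A b a = ∏ i, A i (b i) (a i) := rfl

omit [DecidableEq κ] in
theorem tpi_mul (A B : ι → Matrix κ κ E) : tpi A * tpi B = tpi fun i => A i * B i := by
  ext b a
  simp only [Matrix.mul_apply, tpi_apply, ← Finset.prod_mul_distrib]
  rw [Finset.prod_univ_sum, Fintype.piFinset_univ]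

omit [Fintype κ] [DecidableEq ι] in
theorem tpi_one : tpi (fun _ : ι => (1 : Matrix κ κ E)) = 1 := by
  ext b a
  simp only [tpi_apply, Matrix.one_apply, Finset.prod_ite_zero, Finset.mem_univ, forall_const,
    Finset.prod_const_one, funext_iff]

omit [Fintype κ] [DecidableEq κ] [DecidableEq ι] in
theorem tpi_map (φ : E →+* E') (A : ι → Matrix κ κ E) :
    (tpi A).map φ = tpi fun i => (A i).map φ := by
  ext b a
  simp only [Matrix.map_apply, tpi_apply, map_prod]

omit [Fintype κ] [DecidableEq κ] in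
theorem tpi_update (A : ι → Matrix κ κ E) (i : ι) (X : Matrix κ κ E) (b a : ι → κ) :
    tpi (Function.update A i X) b a = X (b i) (a i) * ∏ j ∈ univ.erase i, A j (b j) (a j) := by
  rw [tpi_apply, ← Finset.mul_prod_erase _ _ (Finset.mem_univ i), Function.update_self]
  refine congrArg _ (Finset.prod_congr rfl fun j hj => ?_)
  rw [Function.update_of_ne (Finset.ne_of_mem_erase hj)]

variable (E κ) in
/-- the matrix of an element of the group ring -/
def emat (c : MonoidAlgebra ℤ (Equiv.Perm ι)) : Matrix (ι → κ) (ι → κ) E :=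
  Matrix.of fun b a => (mat c b a : E)

omit [Fintype κ] in
theorem emat_apply (c : MonoidAlgebra ℤ (Equiv.Perm ι)) (b a : ι → κ) :
    emat E κ c b a = (mat c b a : E) := rfl

omit [Fintype κ] in
theorem emat_map (φ : E →+* E') (c : MonoidAlgebra ℤ (Equiv.Perm ι)) :
    (emat E κ c).map φ = emat E' κ c := by
  ext b a
  simp only [Matrix.map_apply, emat_apply, map_intCast]

theorem emat_tpi (c : MonoidAlgebra ℤ (Equiv.Perm ι)) (X : Matrix κ κ E) :
    emat E κ c * tpi (fun _ => X) = tpi (fun _ => X) * emat E κ c := by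
  ext b a
  simp only [Matrix.mul_apply, emat_apply, mat, Int.cast_sum, Int.cast_ite, Int.cast_zero,
    Finset.sum_mul, Finset.mul_sum, ite_mul, mul_ite, zero_mul, mul_zero]
  rw [Finset.sum_comm, Finset.sum_comm (s := (univ : Finset (ι → κ)))]
  refine Finset.sum_congr rfl fun σ _ => ?_
  have h : ∀ e : ι → κ, e ∘ σ = a ↔ a ∘ σ.symm = e := fun e =>
    ⟨fun h => by rw [← h, Function.comp_assoc, Equiv.self_comp_symm, Function.comp_id],
      fun h => by rw [← h, Function.comp_assoc, Equiv.symm_comp_self, Function.comp_id]⟩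
  simp only [h, Finset.sum_ite_eq, Finset.mem_univ, if_true, tpi_apply]
  rw [mul_comm, ← Equiv.prod_comp σ fun i => X (b i) ((a ∘ σ.symm) i)]
  simp only [Function.comp_apply, Equiv.symm_apply_apply]

theorem emat_kill {c : MonoidAlgebra ℤ (Equiv.Perm ι)}
    (kill : ∀ a b : ι → κ, (univ.image b).card < Fintype.card κ → mat c a b = 0)
    {Q : Matrix κ κ E} {b₀ : κ} (hQ : ∀ a, Q b₀ a = 0) : emat E κ c * tpi (fun _ => Q) = 0 := by
  ext b a
  rw [Matrix.mul_apply, Matrix.zero_apply]
  refine Finset.sum_eq_zero fun e _ => ?_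
  by_cases h : b₀ ∈ univ.image e
  · obtain ⟨i, -, rfl⟩ := Finset.mem_image.1 h
    rw [tpi_apply, Finset.prod_eq_zero (Finset.mem_univ i) (hQ _), mul_zero]
  · rw [emat_apply, kill b e (Finset.card_lt_card ⟨Finset.subset_univ _,
      fun h1 => h (h1 (Finset.mem_univ _))⟩), Int.cast_zero, zero_mul]

section conj

variable {P : Type} [Group P] (φ : P → E →+* E) (ρ : P → Matrix κ κ E)

/-- the conjugation action defined by a cocycle -/
def cj (g : P) (X : Matrix κ κ E) : Matrix κ κ E := ρ g * X.map (φ g) * (ρ g⁻¹).map (φ g)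

/-- matrix cocycles -/
structure IsCoc : Prop where
  φ_mul : ∀ g h x, φ (g * h) x = φ g (φ h x)
  one : ρ 1 = 1
  mul : ∀ g h, ρ (g * h) = ρ g * (ρ h).map (φ g)

variable {φ ρ}

theorem IsCoc.mul_inv (H : IsCoc φ ρ) (g : P) : ρ g * (ρ g⁻¹).map (φ g) = 1 := by
  rw [← H.mul, mul_inv_cancel, H.one]

theorem IsCoc.inv_mul (H : IsCoc φ ρ) (g : P) : (ρ g⁻¹).map (φ g) * ρ g = 1 :=
  mul_eq_one_comm.1 (H.mul_inv g)

theorem IsCoc.cj_mul (H : IsCoc φ ρ) (g : P) (X Y : Matrix κ κ E) :
    cj φ ρ g (X * Y) = cj φ ρ g X * cj φ ρ g Y := by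
  simp only [cj, Matrix.map_mul, mul_assoc]
  rw [← mul_assoc _ (ρ g), H.inv_mul, one_mul]

theorem IsCoc.cj_one (H : IsCoc φ ρ) (g : P) : cj φ ρ g 1 = 1 := by
  rw [cj, Matrix.map_one _ (map_zero _) (map_one _), mul_one, H.mul_inv]

omit [DecidableEq κ] in
theorem cj_sub (g : P) (X Y : Matrix κ κ E) : cj φ ρ g (X - Y) = cj φ ρ g X - cj φ ρ g Y := by
  rw [cj, cj, cj, Matrix.map_sub _ (map_sub _), mul_sub, sub_mul]

omit [DecidableEq κ] in
theorem cj_add (g : P) (X Y : Matrix κ κ E) : cj φ ρ g (X + Y) = cj φ ρ g X + cj φ ρ g Y := by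
  rw [cj, cj, cj, Matrix.map_add _ (map_add _), mul_add, add_mul]

theorem IsCoc.cj_cj (H : IsCoc φ ρ) (g h : P) (X : Matrix κ κ E) :
    cj φ ρ g (cj φ ρ h X) = cj φ ρ (g * h) X := by
  have h1 : ∀ Y : Matrix κ κ E, (Y.map (φ h)).map (φ g) = Y.map (φ (g * h)) := fun Y => by
    ext a b
    exact (H.φ_mul g h _).symm
  have h2 : (ρ (g * h)⁻¹).map (φ (g * h)) = (ρ h⁻¹).map (φ (g * h)) * (ρ g⁻¹).map (φ g) := by
    rw [mul_inv_rev, H.mul, Matrix.map_mul]
    congr 1
    ext a b
    rw [Matrix.map_apply, Matrix.map_apply, Matrix.map_apply, ← H.φ_mul, mul_inv_cancel_right]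
  simp only [cj, Matrix.map_mul, h1, h2, H.mul g h, mul_assoc]

theorem IsCoc.tens (H : IsCoc φ ρ) : IsCoc φ fun g => tpi fun _ : ι => ρ g where
  φ_mul := H.φ_mul
  one := by rw [H.one, tpi_one]
  mul g h := by rw [tpi_map, tpi_mul, H.mul]

omit [DecidableEq κ] in
theorem cj_tpi (g : P) (A : ι → Matrix κ κ E) :
    cj φ (fun g => tpi fun _ : ι => ρ g) g (tpi A) = tpi fun i => cj φ ρ g (A i) := by
  rw [cj, tpi_map, tpi_map, tpi_mul, tpi_mul]
  rfl

variable [Fintype P]

omit [DecidableEq κ] in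
theorem cj_sum (g : P) (X : P → Matrix κ κ E) : cj φ ρ g (∑ h, X h) = ∑ h, cj φ ρ g (X h) :=
  map_sum (AddMonoidHom.mk' (cj φ ρ g) (cj_add g)) X univ

theorem IsCoc.cj_norm (H : IsCoc φ ρ) (g : P) (X : Matrix κ κ E) :
    cj φ ρ g (∑ h, cj φ ρ h X) = ∑ h, cj φ ρ h X := by
  rw [cj_sum]
  simp only [H.cj_cj]
  exact Fintype.sum_equiv (Equiv.mulLeft g) _ _ fun _ => rfl

theorem IsCoc.one_sub (H : IsCoc φ ρ) (θ : Matrix κ κ E) (S : Finset ι) :
    ∃ η, ∑ g, cj φ (fun g => tpi fun _ : ι => ρ g) g η =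
      1 - tpi fun i => if i ∈ S then 1 - ∑ h, cj φ ρ h θ else 1 := by
  induction S using Finset.induction_on with
  | empty =>
    refine ⟨0, ?_⟩
    simp only [cj, Matrix.map_zero _ (map_zero _), mul_zero, zero_mul, Finset.sum_const_zero,
      Finset.notMem_empty, if_false, tpi_one, sub_self]
  | insert i S hi ih =>
    obtain ⟨η, hη⟩ := ih
    let A : ι → Matrix κ κ E := fun j => if j ∈ S then 1 - ∑ h, cj φ ρ h θ else 1
    have hA : ∀ g j, cj φ ρ g (A j) = A j := fun g j => by
      simp only [A]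
      split_ifs
      · rw [cj_sub, H.cj_one, H.cj_norm]
      · exact H.cj_one g
    have h1 : (fun j => if j ∈ insert i S then 1 - ∑ h, cj φ ρ h θ else 1) =
        Function.update A i (1 - ∑ h, cj φ ρ h θ) := funext fun j => by
      by_cases hj : j = i
      · rw [hj, Function.update_self, if_pos (Finset.mem_insert_self _ _)]
      · simp only [Function.update_of_ne hj, A, Finset.mem_insert, hj, false_or]
    have h2 : A = Function.update A i 1 := by
      rw [eq_comm, Function.update_eq_self_iff]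
      exact (if_neg hi).symm
    have h3 : ∀ g, (fun j => cj φ ρ g (Function.update A i θ j)) =
        Function.update A i (cj φ ρ g θ) := fun g => funext fun j => by
      by_cases hj : j = i
      · rw [hj, Function.update_self, Function.update_self]
      · rw [Function.update_of_ne hj, Function.update_of_ne hj, hA]
    refine ⟨η + tpi (Function.update A i θ), ?_⟩
    simp only [cj_add, Finset.sum_add_distrib, cj_tpi, h3]
    rw [hη, h1]
    change 1 - tpi A + _ = _
    conv_lhs => rw [h2]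
    ext b a
    simp only [Matrix.add_apply, Matrix.sub_apply, Matrix.sum_apply, Function.update_idem,
      tpi_update, sub_mul, Finset.sum_mul]
    ring

/-- **The argument of Smith.** -/
theorem IsCoc.smith_hg (H : IsCoc φ ρ) {a₀ b₀ : κ} (hu : IsUnit (∑ g, ρ g b₀ a₀))
    {c : MonoidAlgebra ℤ (Equiv.Perm ι)}
    (kill : ∀ a b : ι → κ, (univ.image b).card < Fintype.card κ → mat c a b = 0) :
    ∃ θ, ∑ g, cj φ (fun g => tpi fun _ : ι => ρ g) g θ = emat E κ c := by
  obtain ⟨u, hu⟩ := hu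
  let V : Matrix κ κ E := (∑ g, ρ g) * Matrix.single a₀ a₀ 1
  let L : Matrix κ κ E := Matrix.single a₀ b₀ ((u⁻¹ : Eˣ) : E)
  have hV : ∀ g, ρ g * V.map (φ g) = V := fun g => by
    rw [Matrix.map_mul, Matrix.map_single, map_one, ← mul_assoc]
    congr 1
    have h1 := map_sum (RingHom.mapMatrix (m := κ) (φ g)) ρ univ
    rw [RingHom.mapMatrix_apply] at h1
    rw [h1, Finset.mul_sum]
    exact Fintype.sum_equiv (Equiv.mulLeft g) _ _ fun h => (H.mul g h).symm
  have hb : ∀ a, V b₀ a = if a = a₀ then (u : E) else 0 := fun a => by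
    split_ifs with h
    · rw [h, hu, ← Matrix.sum_apply]
      exact (Matrix.mul_single_apply_same _ _ _ _ _).trans (mul_one _)
    · exact Matrix.mul_single_apply_of_ne _ _ _ _ _ h _
  have hLV : L * V = Matrix.single a₀ a₀ 1 := by
    ext b a
    by_cases h : b = a₀
    · rw [h, Matrix.single_mul_apply_same, hb, Matrix.single_apply]
      by_cases h' : a = a₀
      · rw [if_pos h', if_pos ⟨rfl, h'.symm⟩, Units.inv_mul]
      · rw [if_neg h', if_neg fun e => h' e.2.symm, mul_zero]
    · rw [Matrix.single_mul_apply_of_ne _ _ _ _ _ h, Matrix.single_apply_of_row_ne (Ne.symm h)]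
  have hπ : (∑ g, cj φ ρ g L) * V = V := by
    rw [Finset.sum_mul]
    refine Eq.trans (Finset.sum_congr rfl fun g _ => ?_) (Finset.sum_mul _ _ _).symm
    have h1 : (ρ g⁻¹).map (φ g) * V = V.map (φ g) := by
      conv_lhs => rw [← hV g, ← mul_assoc, H.inv_mul, one_mul]
    rw [cj, mul_assoc, h1, mul_assoc, ← Matrix.map_mul, hLV, Matrix.map_single, map_one]
  have hQ : ∀ a, (1 - V * L) b₀ a = 0 := fun a => by
    rw [Matrix.sub_apply, Matrix.one_apply]
    by_cases h : a = b₀
    · rw [h, Matrix.mul_single_apply_same, hb, if_pos rfl, if_pos rfl, Units.mul_inv, sub_self]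
    · rw [Matrix.mul_single_apply_of_ne _ _ _ _ _ h, if_neg (Ne.symm h), sub_self]
  have h0 : emat E κ c * tpi (fun _ : ι => 1 - ∑ g, cj φ ρ g L) = 0 := by
    have h1 : 1 - ∑ g, cj φ ρ g L = (1 - ∑ g, cj φ ρ g L) * (1 - V * L) := by
      rw [mul_sub, mul_one, ← mul_assoc, sub_mul, one_mul, hπ, sub_self, zero_mul, sub_zero]
    rw [h1, ← tpi_mul, ← mul_assoc, emat_tpi, mul_assoc, emat_kill kill hQ, mul_zero]
  obtain ⟨η, hη⟩ := H.one_sub L (univ : Finset ι)
  simp only [Finset.mem_univ, if_true] at hη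
  have hε : ∀ g, cj φ (fun g => tpi fun _ : ι => ρ g) g (emat E κ c) = emat E κ c := fun g => by
    rw [cj, emat_map, ← emat_tpi, mul_assoc, H.tens.mul_inv, mul_one]
  refine ⟨emat E κ c * η, ?_⟩
  simp only [H.tens.cj_mul, hε]
  rw [← Finset.mul_sum, hη, mul_sub, mul_one, h0, sub_zero]

end conj

end Vale.Agent.P261Z.X
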