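import Vale.Agent.P261Z.T2.BTr
import Vale.Agent.P261Z.T1.Top
import Vale.Agent.P261Z.T1.DescN
import Vale.Agent.P261Z.T3.GIter
import Vale.Agent.P261Z.JM.Smith

/-!
# P261, block X (base case of T2): definitions

* `TwEnd Tw`, `fixT e`: an endomorphism of a tower of complexes, the tower of fixed points;
* `towerX p n ι M w`: the tower `j ↦ C^s(NN p n (j+1) [x_b] / (x_b ^ M))_w`, `epsX`: the action of
  an element of the group ring of the permutations of the variables;
* the action of a group on `Tr T ι M` (on the coefficients), `epsW`, `epsP`, `redP`;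
* `twX D j ι M`: the twisted action of `Aut H` on `E_j[y_b] / (y_b ^ M)`, the modules `VX`, the
  maps `epsV`, `redV`; `VanX`, `FinX`: the input from group cohomology.
-/

open Vale.Agent.P251 Vale.Agent.P251.F Vale.Agent.P251.S Vale.Agent.P251.C Vale.Agent.P251.M
  Vale.Agent.P261Z.T2 Vale.Agent.P261Z.T1

namespace Vale.Agent.P261Z.X

universe u

/-! ### towers with an endomorphism -/

/-- An endomorphism of a tower of complexes. -/
structure TwEnd (Tw : TowerCx.{u}) where
  /-- the components -/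
  E : ∀ s j, Tw.C s j →+ Tw.C s j
  d_E : ∀ s j x, Tw.d s j (E s j x) = E (s + 1) j (Tw.d s j x)
  r_E : ∀ s j x, Tw.r s j (E s (j + 1) x) = E s j (Tw.r s j x)

/-- The endomorphism is idempotent. -/
def TwEnd.Idem {Tw : TowerCx.{u}} (e : TwEnd Tw) : Prop :=
  ∀ s j x, e.E s j (e.E s j x) = e.E s j x

/-- The endomorphism is pro-zero on `H^{s+1}`. -/
def TwEnd.PZ {Tw : TowerCx.{u}} (e : TwEnd Tw) (s : ℕ) : Prop :=
  ∀ j, ∃ j', ∃ h : j ≤ j', ∀ z : Tw.C (s + 1) j', Tw.d (s + 1) j' z = 0 →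
    ∃ y : Tw.C s j, Tw.d s j y = e.E (s + 1) j (Tw.res (s + 1) h z)

/-- The endomorphism has bounded stable images on `H^s`. -/
def TwEnd.Bd {Tw : TowerCx.{u}} (e : TwEnd Tw) (s : ℕ) : Prop :=
  ∃ N : ℕ, ∀ j, ∃ j', ∃ h : j ≤ j', ∀ z : Fin (N + 1) → Tw.C s j', (∀ i, Tw.d s j' (z i) = 0) →
    ∃ a b, a ≠ b ∧ e.E s j (Tw.res s h (z a - z b)) ∈ bdT Tw s j

/-- The tower of the fixed points of an endomorphism. -/
def fixT {Tw : TowerCx.{u}} (e : TwEnd Tw) : TowerCx.{u} where
  C s j := (e.E s j).eqLocus (AddMonoidHom.id _)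
  d s j := ((Tw.d s j).comp (AddSubgroup.subtype _)).codRestrict _ fun x => by
    have hx : e.E s j x.1 = x.1 := x.2
    change e.E (s + 1) j (Tw.d s j x.1) = Tw.d s j x.1
    rw [← e.d_E, hx]
  r s j := ((Tw.r s j).comp (AddSubgroup.subtype _)).codRestrict _ fun x => by
    have hx : e.E s (j + 1) x.1 = x.1 := x.2
    change e.E s j (Tw.r s j x.1) = Tw.r s j x.1
    rw [← e.r_E, hx]
  d_d s j x := Subtype.ext (Tw.d_d s j x.1)
  d_r s j x := Subtype.ext (Tw.d_r s j x.1)

theorem fixT_surj {Tw : TowerCx.{u}} {e : TwEnd Tw} (he : e.Idem) {s j : ℕ}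
    (h : Function.Surjective (Tw.r s j)) : Function.Surjective ((fixT e).r s j) := by
  intro x
  obtain ⟨y, hy⟩ := h x.1
  refine ⟨⟨e.E s (j + 1) y, he s (j + 1) y⟩, Subtype.ext ?_⟩
  change Tw.r s j (e.E s (j + 1) y) = x.1
  rw [e.r_E, hy]
  exact x.2

/-! ### the group ring acts -/

section eps

variable {N : Type} [CommRing N] {ι : Type} [Fintype ι] [DecidableEq ι] {M : ℕ}

variable (N M) in
/-- The action of the group ring on `N[x_b] / (x_b ^ M)`. -/
noncomputable def epsT (c : MonoidAlgebra ℤ (Equiv.Perm ι)) : Tr N ι M →+ Tr N ι M :=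
  ∑ σ : Equiv.Perm ι, c.coeff σ • (Tr.perm N M σ).toAddMonoidHom

theorem epsT_apply (c : MonoidAlgebra ℤ (Equiv.Perm ι)) (x : Tr N ι M) :
    epsT N M c x = ∑ σ : Equiv.Perm ι, c.coeff σ • Tr.perm N M σ x := by
  simp [epsT, AddMonoidHom.finsetSum_apply]

variable (N M) in
/-- The action of the group ring on the cobar complex. -/
noncomputable def epsC (c : MonoidAlgebra ℤ (Equiv.Perm ι)) (s : ℕ) :
    Cob (Tr N ι M) s →+ Cob (Tr N ι M) s :=
  ∑ σ : Equiv.Perm ι, c.coeff σ • (Cob.mapRing (Tr.perm N M σ) s).toAddMonoidHom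

theorem epsC_apply (c : MonoidAlgebra ℤ (Equiv.Perm ι)) (s : ℕ) (x : Cob (Tr N ι M) s) :
    epsC N M c s x = ∑ σ : Equiv.Perm ι, c.coeff σ • Cob.mapRing (Tr.perm N M σ) s x := by
  simp [epsC, AddMonoidHom.finsetSum_apply]

theorem mapRing_epsC {N' : Type} [CommRing N'] (φ : N →+* N')
    (c : MonoidAlgebra ℤ (Equiv.Perm ι)) (s : ℕ) (x : Cob (Tr N ι M) s) :
    Cob.mapRing (Tr.map ι M φ) s (epsC N M c s x) =
      epsC N' M c s (Cob.mapRing (Tr.map ι M φ) s x) := by
  rw [epsC_apply, epsC_apply, map_sum]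
  refine Finset.sum_congr rfl fun σ _ => ?_
  rw [map_zsmul, Cob.mapRing_mapRing, Cob.mapRing_mapRing, Tr.mapP_comp, Tr.mapP_comp]
  rfl

variable [LawRing N]

omit [Fintype ι] [DecidableEq ι] in
theorem isLawHom_perm (σ : Equiv.Perm ι) : IsLawHom (Tr.perm N M σ) :=
  Tr.isLawHom_mapP IsLawHom.id σ

theorem d_epsC (c : MonoidAlgebra ℤ (Equiv.Perm ι)) (s : ℕ) (x : Cob (Tr N ι M) s) :
    Cob.d s (epsC N M c s x) = epsC N M c (s + 1) (Cob.d s x) := by
  rw [epsC_apply, epsC_apply, map_sum]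
  refine Finset.sum_congr rfl fun σ _ => ?_
  rw [map_zsmul, Cob.mapRing_d (isLawHom_perm σ)]

theorem isWt_epsC (c : MonoidAlgebra ℤ (Equiv.Perm ι)) {s : ℕ} {w : ℤ} {x : Cob (Tr N ι M) s}
    (hx : Cob.IsWt w x) : Cob.IsWt w (epsC N M c s x) := by
  rw [epsC_apply]
  exact (Cob.wt _ s w).sum_mem fun σ _ => (hx.mapRing (isLawHom_perm σ)).zsmul _

end eps

/-! ### the tower -/

section tower

variable (p n : ℕ) [Fact p.Prime] (ι : Type) (M : ℕ)

theorem isLawHom_redN {j j' : ℕ} (h : j ≤ j') : IsLawHom (Tr.map ι M (NN.red p n h)) :=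
  Tr.isLawHom_mapP (isLawHom_NN_red p n h) id

/-- The tower `j ↦ C^s(v_n⁻¹ Laz/(p, I_n^{j+1}) [x_b] / (x_b ^ M))_w` of cochain complexes. -/
noncomputable def towerX (w : ℤ) : TowerCx.{0} where
  C s j := Cob.wt (Tr (NN p n (j + 1)) ι M) s w
  d s j := ((Cob.d s).comp (Cob.wt (Tr (NN p n (j + 1)) ι M) s w).subtype).codRestrict
    (Cob.wt (Tr (NN p n (j + 1)) ι M) (s + 1) w) fun x => Cob.IsWt.d x.2
  r s j := (((Cob.mapRing (Tr.map ι M (NN.red p n (Nat.le_succ (j + 1)))) s).toAddMonoidHom).comp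
    (Cob.wt (Tr (NN p n (j + 2)) ι M) s w).subtype).codRestrict
    (Cob.wt (Tr (NN p n (j + 1)) ι M) s w) fun x =>
      Cob.IsWt.mapRing (isLawHom_redN p n ι M _) x.2
  d_d _ _ x := Subtype.ext (Cob.d_d x.1)
  d_r _ _ x := Subtype.ext (Cob.mapRing_d (isLawHom_redN p n ι M _) x.1).symm

variable {p n ι M} in
/-- The underlying element of the cobar complex. -/
noncomputable def xval {w : ℤ} {s j : ℕ} (x : (towerX p n ι M w).C s j) :
    Cob (Tr (NN p n (j + 1)) ι M) s := (show Cob.wt (Tr (NN p n (j + 1)) ι M) s w from x).1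

variable {p n ι M} in
theorem xval_injective {w : ℤ} {s j : ℕ} :
    Function.Injective (xval : (towerX p n ι M w).C s j → _) := Subtype.val_injective

variable {ι} [Fintype ι] [DecidableEq ι]

/-- The action of the group ring on the tower. -/
noncomputable def epsX (c : MonoidAlgebra ℤ (Equiv.Perm ι)) (w : ℤ) :
    TwEnd (towerX p n ι M w) where
  E s j := ((epsC (NN p n (j + 1)) M c s).comp
    (Cob.wt (Tr (NN p n (j + 1)) ι M) s w).subtype).codRestrict
    (Cob.wt (Tr (NN p n (j + 1)) ι M) s w) fun x => isWt_epsC c x.2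
  d_E s _ x := Subtype.ext (d_epsC c s x.1)
  r_E s _ x := Subtype.ext (mapRing_epsC _ c s x.1)

theorem xval_epsX (c : MonoidAlgebra ℤ (Equiv.Perm ι)) (w : ℤ) (s j : ℕ)
    (x : (towerX p n ι M w).C s j) :
    xval ((epsX p n M c w).E s j x) = epsC (NN p n (j + 1)) M c s (xval x) := rfl

end tower

/-! ### group actions -/

section act

variable {G : Type} [Group G] {T T' : Type} [CommRing T] [CommRing T'] [MulSemiringAction G T]
  [MulSemiringAction G T'] {ι : Type} {M : ℕ}

/-- The action on the coefficients. -/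
noncomputable instance trAct : MulSemiringAction G (Tr T ι M) where
  smul g t := Tr.map ι M (MulSemiringAction.toRingHom G T g) t
  one_smul t := by
    have h : MulSemiringAction.toRingHom G T 1 = RingHom.id T := RingHom.ext (one_smul G)
    change Tr.map ι M (MulSemiringAction.toRingHom G T 1) t = t
    rw [h, Tr.map, Tr.mapP_id, RingHom.id_apply]
  mul_smul g h t := by
    have e : MulSemiringAction.toRingHom G T (g * h) =
        (MulSemiringAction.toRingHom G T g).comp (MulSemiringAction.toRingHom G T h) :=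
      RingHom.ext (mul_smul g h)
    change Tr.map ι M (MulSemiringAction.toRingHom G T (g * h)) t =
      (Tr.map ι M (MulSemiringAction.toRingHom G T g)).comp
        (Tr.map ι M (MulSemiringAction.toRingHom G T h)) t
    rw [e, Tr.mapP_comp]
    rfl
  smul_zero _ := map_zero (Tr.map ι M _)
  smul_add _ := map_add (Tr.map ι M _)
  smul_one _ := map_one (Tr.map ι M _)
  smul_mul _ := map_mul (Tr.map ι M _)

theorem toRingHom_tr (g : G) : MulSemiringAction.toRingHom G (Tr T ι M) g =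
    Tr.map ι M (MulSemiringAction.toRingHom G T g) := rfl

theorem smul_tr (g : G) (t : Tr T ι M) :
    g • t = Tr.map ι M (MulSemiringAction.toRingHom G T g) t := rfl

theorem mapP_smul {φ : T' →+* T} (hG : ∀ (γ : G) (t : T'), φ (γ • t) = γ • φ t) (σ : ι → ι)
    (γ : G) (t : Tr T' ι M) : Tr.mapP φ σ (γ • t) = γ • Tr.mapP φ σ t := by
  have h : φ.comp (MulSemiringAction.toRingHom G T' γ) =
      (MulSemiringAction.toRingHom G T γ).comp φ := RingHom.ext (hG γ)
  rw [smul_tr, smul_tr, ← RingHom.comp_apply, ← RingHom.comp_apply, Tr.mapP_comp, Tr.mapP_comp, h]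
  rfl

variable [LawRing T] [LawRing T'] [LawAction G T] [LawAction G T']

instance : LawAction G (Tr T ι M) where
  isLawHom γ := Tr.isLawHom_mapP (LawAction.isLawHom γ) id

variable (ι M) in
/-- Change of coefficients on the primitive functions. -/
noncomputable def redP {φ : T' →+* T} (hφ : IsLawHom φ)
    (hG : ∀ (γ : G) (t : T'), φ (γ • t) = γ • φ t) (w : ℤ) :
    Prim (Tr T' ι M) w →+[G] Prim (Tr T ι M) w :=
  primMap (Tr.isLawHom_mapP hφ id) (mapP_smul hG id) w

variable [Fintype ι] [DecidableEq ι]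

omit [LawRing T] [LawAction G T] in
theorem epsC_smul (c : MonoidAlgebra ℤ (Equiv.Perm ι)) (s : ℕ) (γ : G) (x : Cob (Tr T ι M) s) :
    epsC T M c s (γ • x) = γ • epsC T M c s x := by
  rw [smul_cob, smul_cob, toRingHom_tr, mapRing_epsC]

variable (G T M) in
/-- The action of the group ring on the functions of weight `w`. -/
noncomputable def epsW (c : MonoidAlgebra ℤ (Equiv.Perm ι)) (s : ℕ) (w : ℤ) :
    Cob.wt (Tr T ι M) s w →+[G] Cob.wt (Tr T ι M) s w where
  toFun x := ⟨epsC T M c s x.1, isWt_epsC c x.2⟩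
  map_smul' γ x := Subtype.ext (epsC_smul c s γ x.1)
  map_zero' := Subtype.ext (map_zero _)
  map_add' x y := Subtype.ext (map_add _ x.1 y.1)

variable (G T M) in
/-- The action of the group ring on the primitive functions. -/
noncomputable def epsP (c : MonoidAlgebra ℤ (Equiv.Perm ι)) (w : ℤ) :
    Prim (Tr T ι M) w →+[G] Prim (Tr T ι M) w where
  toFun x := ⟨epsW G T M c 0 w x.1, by
    have hx : Cob.d 0 x.1.1 = 0 := x.2
    change Cob.d 0 (epsC T M c 0 x.1.1) = 0
    rw [d_epsC, hx, map_zero]⟩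
  map_smul' γ x := Subtype.ext (map_smul (epsW G T M c 0 w) γ x.1)
  map_zero' := Subtype.ext (map_zero (epsW G T M c 0 w))
  map_add' x y := Subtype.ext (map_add (epsW G T M c 0 w) x.1 y.1)

end act

/-! ### the twisted action on `E_j[y_b] / (y_b ^ M)` -/

section sub

variable {E E' E'' : Type} [CommRing E] [CommRing E'] [CommRing E''] (ι : Type) (M : ℕ)

/-- `φ` on the coefficients, `y_b ↦ f (y_b)` on the variables. -/
noncomputable def sub (φ : E →+* E') (f : InvSeries E') : Tr E ι M →+* Tr E' ι M :=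
  Tr.lift ((Tr.C ι M).comp φ)
    (fun b => nev1 (Tr.x E' M b) (InvSeries.map (Tr.C ι M) f).val)
    fun b => Tr.nev1_pow (Tr.x_pow b) _

variable {ι M}

@[simp] theorem sub_C (φ : E →+* E') (f : InvSeries E') (a : E) :
    sub ι M φ f (Tr.C ι M a) = Tr.C ι M (φ a) := Tr.lift_C _ _ _ _

theorem sub_x (φ : E →+* E') (f : InvSeries E') (b : ι) :
    sub ι M φ f (Tr.x E M b) = nev1 (Tr.x E' M b) (InvSeries.map (Tr.C ι M) f).val :=
  Tr.lift_x _ _ _ _

theorem sub_comp_C (φ : E →+* E') (f : InvSeries E') :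
    (sub ι M φ f).comp (Tr.C ι M) = (Tr.C ι M).comp φ := Tr.lift_comp_C _ _ _

theorem sub_one (φ : E →+* E') : sub ι M φ 1 = Tr.map ι M φ :=
  Tr.hom_ext (by rw [sub_comp_C, Tr.mapP_comp_C]) fun b => by
    rw [sub_x, map_one, InvSeries.one_val, nev1_X ⟨M, Tr.x_pow b⟩, Tr.mapP_x]
    rfl

theorem sub_comp (φ : E' →+* E'') (f : InvSeries E'') (ψ : E →+* E') (g : InvSeries E') :
    (sub ι M φ f).comp (sub ι M ψ g) = sub ι M (φ.comp ψ) (InvSeries.map φ g * f) :=
  Tr.hom_ext (by rw [RingHom.comp_assoc, sub_comp_C, ← RingHom.comp_assoc, sub_comp_C,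
      sub_comp_C, RingHom.comp_assoc]) fun b => by
    rw [RingHom.comp_apply, sub_x, sub_x, Tr.map_nev1 _ (Tr.x_pow b), sub_x, InvSeries.map_map,
      sub_comp_C, map_mul, InvSeries.mul_val,
      nev1_psubst ⟨M, Tr.x_pow b⟩ (InvSeries.map (Tr.C ι M) f).cc, InvSeries.map_map]

theorem perm_comp_sub (φ : E →+* E') (f : InvSeries E') (σ : ι → ι) :
    (Tr.mapP (RingHom.id E') σ).comp (sub ι M φ f) =
      (sub ι M φ f).comp (Tr.mapP (RingHom.id E) σ) :=
  Tr.hom_ext (RingHom.ext fun a => by simp) fun b => by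
    rw [RingHom.comp_apply, RingHom.comp_apply, sub_x, Tr.mapP_x, sub_x,
      Tr.map_nev1 _ (Tr.x_pow b), Tr.mapP_x, InvSeries.map_map, Tr.mapP_comp_C, RingHom.comp_id]

end sub

section LT

variable {p n : ℕ} [Fact p.Prime] {k : Type} [Field k] (D : LTD p n k) (j : ℕ)

/-- The series by which `g` acts on the variables; it reduces to the series of `g⁻¹`. -/
noncomputable def serX (g : D.GG) : InvSeries (D.EJ j) :=
  ((D.coPt j).ser (MulSemiringAction.toRingHom D.GG (D.TT j) g))⁻¹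

theorem serX_one : serX D j 1 = 1 := by
  have h : MulSemiringAction.toRingHom D.GG (D.TT j) 1 = RingHom.id _ :=
    RingHom.ext (one_smul D.GG)
  rw [serX, h, CoPt.ser_id, inv_one]

theorem serX_mul (g h : D.GG) :
    serX D j (g * h) = InvSeries.map ((tw D j).phi g) (serX D j h) * serX D j g := by
  have e : MulSemiringAction.toRingHom D.GG (D.TT j) (g * h) =
      (MulSemiringAction.toRingHom D.GG (D.TT j) g).comp
        (MulSemiringAction.toRingHom D.GG (D.TT j) h) := RingHom.ext (mul_smul g h)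
  rw [serX, e, (D.coPt j).ser_comp ((D.coPt j).comm_of_lawAction (D.isCo j) h), mul_inv_rev,
    ← map_inv]
  rfl

theorem serX_red {j j' : ℕ} (hj : j ≤ j') (g : D.GG) :
    InvSeries.map (twR D hj).r (serX D j' g) = serX D j g := by
  rw [serX, serX, map_inv]
  congr 1
  exact (D.coPt j).ser_nat (D.coPt j') (D.redT hj) _ (D.redT_comp_inc hj) (D.map_redT_ser hj)
    (RingHom.ext fun t => D.redT_smul hj g t)

variable (ι : Type) (M : ℕ)

/-- The twisted action of `Aut H` on `E_j[y_b] / (y_b ^ M)`. -/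
noncomputable def twX : TwAct D.GG (Tr (D.EJ j) ι M) where
  phi g := sub ι M ((tw D j).phi g) (serX D j g)
  a g := Units.map ((Tr.C ι M : D.EJ j →+* Tr (D.EJ j) ι M) : D.EJ j →* Tr (D.EJ j) ι M)
    ((tw D j).a g)
  phi_one := by rw [(tw D j).phi_one, serX_one, sub_one, Tr.map, Tr.mapP_id]
  phi_mul g h := by rw [sub_comp, (tw D j).phi_mul, serX_mul]
  a_one := by rw [(tw D j).a_one, map_one]
  a_mul g h := by
    rw [(tw D j).a_mul, map_mul]
    exact congrArg _ (Units.ext (sub_C ((tw D j).phi g) (serX D j g) ((tw D j).a h)).symm)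

/-- The reduction as a morphism of twisted actions. -/
noncomputable def twXR {j j' : ℕ} (hj : j ≤ j') :
    TwAct.Hom (twX D j' ι M) (twX D j ι M) where
  r := Tr.map ι M (twR D hj).r
  phi g x := by
    have h1 : (twR D hj).r.comp ((tw D j').phi g) = ((tw D j).phi g).comp (twR D hj).r :=
      RingHom.ext ((twR D hj).phi g)
    change (Tr.map ι M (twR D hj).r).comp (sub ι M ((tw D j').phi g) (serX D j' g)) x =
      (sub ι M ((tw D j).phi g) (serX D j g)).comp (Tr.map ι M (twR D hj).r) x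
    rw [← sub_one, sub_comp, sub_comp, h1, serX_red, mul_one, map_one, one_mul]
  a g := by
    rw [← (show _ = (twX D j ι M).a g from congrArg
      (Units.map ((Tr.C ι M : D.EJ j →+* Tr (D.EJ j) ι M) : D.EJ j →* Tr (D.EJ j) ι M))
      ((twR D hj).a g))]
    exact Units.ext (Tr.mapP_C _ _ _)

/-- The `G`-module `E_j[y_b] / (y_b ^ M) ω^w`. -/
abbrev VX (w : ℤ) : Type := (twX D j ι M).Wt w

/-- the transition maps -/
noncomputable def redV (w : ℤ) {j j' : ℕ} (hj : j ≤ j') : VX D j' ι M w →+[D.GG] VX D j ι M w :=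
  (twXR D ι M hj).map w

/-- A permutation of the variables as an endomorphism of the twisted action. -/
noncomputable def twXP (σ : Equiv.Perm ι) : TwAct.Hom (twX D j ι M) (twX D j ι M) where
  r := Tr.perm (D.EJ j) M σ
  phi g x := RingHom.congr_fun (perm_comp_sub ((tw D j).phi g) (serX D j g) σ) x
  a _ := Units.ext (Tr.mapP_C _ _ _)

variable {ι} [Fintype ι] [DecidableEq ι]

/-- The action of the group ring. -/
noncomputable def epsV (c : MonoidAlgebra ℤ (Equiv.Perm ι)) (w : ℤ) :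
    VX D j ι M w →+[D.GG] VX D j ι M w where
  toFun y := ∑ σ : Equiv.Perm ι, c.coeff σ • (twXP D j ι M σ).map w y
  map_smul' g y := by
    rw [MonoidHom.id_apply, Finset.smul_sum]
    exact Finset.sum_congr rfl fun σ _ => by rw [map_smul, smul_comm]
  map_zero' := by simp
  map_add' x y := by simp [Finset.sum_add_distrib]

theorem val_epsV (c : MonoidAlgebra ℤ (Equiv.Perm ι)) (w : ℤ) (y : VX D j ι M w) :
    (twX D j ι M).val w (epsV D j M c w y) = epsT (D.EJ j) M c ((twX D j ι M).val w y) := by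
  rw [epsT_apply]
  rfl

/-- Vanishing line: `c` is zero on `H^s(G; E_j[y_b] / (y_b ^ M) ω^w)` for `s ≥ K`. -/
def VanX (c : MonoidAlgebra ℤ (Equiv.Perm ι)) : Prop :=
  ∃ K : ℕ, ∀ (j : ℕ) (w : ℤ) (s : ℕ), K ≤ s → HMapZero D.GG s (epsV D j M c w)

/-- Finiteness: the summand cut out by `c` has bounded stable images in cohomology. -/
def FinX (c : MonoidAlgebra ℤ (Equiv.Perm ι)) : Prop :=
  ∀ (w : ℤ) (s : ℕ), ProBd D.GG (fun j => VX D j ι M w)
    (fun {j _} hj x => epsV D j M c w (redV D ι M w hj x)) s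

end LT

end Vale.Agent.P261Z.X
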