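import Vale.Agent.P261Z.T1.Tower

/-!
# P261, block T2 (base): endomorphisms of towers and their fixed towers

* `TEnd Tw`: an endomorphism `e` of a tower of complexes;
* `E.PZ s`, `E.Bd s`: the image of `e` in the pro-system `H^{s+1}` is pro-zero, the image of `e` in
  the pro-system `H^s` has bounded stable images;
* `E.fix`: the tower of the fixed elements; `proZero_fix`, `tbd_fix`, `surj_fix`.
-/

namespace Vale.Agent.P261Z.X

open Vale.Agent.P251.S Vale.Agent.P261Z.T1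

universe u

/-- An endomorphism of a tower of complexes. -/
structure TEnd (Tw : TowerCx.{u}) where
  /-- the maps -/
  e : ∀ s j, Tw.C s j →+ Tw.C s j
  d_e : ∀ s j x, Tw.d s j (e s j x) = e (s + 1) j (Tw.d s j x)
  r_e : ∀ s j x, Tw.r s j (e s (j + 1) x) = e s j (Tw.r s j x)

/-- An element of a level lifts to the limit if the transition maps are onto. -/
theorem exists_lim (Tw : TowerCx.{u}) {s : ℕ} (hsurj : ∀ j, Function.Surjective (Tw.r s j))
    (j : ℕ) (x : Tw.C s j) : ∃ y : Tw.lim s, y.1 j = x := by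
  choose σ hσ using hsurj
  let up : ∀ k, Tw.C s (j + k) := fun k =>
    Nat.rec (motive := fun k => Tw.C s (j + k)) x (fun k y => σ (j + k) y) k
  have hup : ∀ k, Tw.r s (j + k) (up (k + 1)) = up k := fun k => hσ (j + k) (up k)
  have h1 : ∀ k, Tw.res s (Nat.le_add_right j k) (up k) = x := by
    intro k
    induction k with
    | zero => exact Tw.res_self s j x
    | succ k ih => rw [← ih, ← hup k]; exact Tw.res_succ s (Nat.le_add_right j k) _
  refine ⟨⟨fun m => Tw.res s (Nat.le_add_left m j) (up m), fun m => ?_⟩, h1 j⟩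
  change Tw.r s m (Tw.res s (Nat.le_add_left (m + 1) j) (up (m + 1))) =
    Tw.res s (Nat.le_add_left m j) (up m)
  rw [Tw.r_res, ← hup m]
  exact Tw.res_succ s (Nat.le_add_left m j) _

namespace TEnd

variable {Tw : TowerCx.{u}} (E : TEnd Tw)

/-- The image of `e` in the pro-system `j ↦ H^{s+1}(C_j)` is pro-zero. -/
def PZ (s : ℕ) : Prop :=
  ∀ j, ∃ j', ∃ h : j ≤ j', ∀ z : Tw.C (s + 1) j', Tw.d (s + 1) j' z = 0 →
    ∃ y : Tw.C s j, Tw.d s j y = E.e (s + 1) j (Tw.res (s + 1) h z)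

/-- The image of `e` in the pro-system `j ↦ H^s(C_j)` has bounded stable images. -/
def Bd (s : ℕ) : Prop :=
  ∃ N : ℕ, ∀ j, ∃ j', ∃ h : j ≤ j', ∀ z : Fin (N + 1) → Tw.C s j', (∀ i, Tw.d s j' (z i) = 0) →
    ∃ a b, a ≠ b ∧ E.e s j (Tw.res s h (z a - z b)) ∈ bdT Tw s j

theorem res_e (s : ℕ) {a b : ℕ} (h : a ≤ b) (x : Tw.C s b) :
    Tw.res s h (E.e s b x) = E.e s a (Tw.res s h x) := by
  induction b, h using Nat.le_induction with
  | base => rw [Tw.res_self, Tw.res_self]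
  | succ b h ih => rw [Tw.res_succ s h, E.r_e, ih, ← Tw.res_succ s h]

theorem PZ.of_proZero {s : ℕ} (h : Tw.ProZero s) : E.PZ s := by
  intro j
  obtain ⟨j', hj, h1⟩ := h j
  refine ⟨j', hj, fun z hz => ?_⟩
  obtain ⟨y, hy⟩ := h1 z hz
  exact ⟨E.e s j y, by rw [E.d_e, hy]⟩

theorem e_mem_bd {s j : ℕ} {x : Tw.C s j} (hx : x ∈ bdT Tw s j) : E.e s j x ∈ bdT Tw s j := by
  cases s with
  | zero =>
    have h1 : x = 0 := hx
    rw [h1, map_zero]
    exact zero_mem _
  | succ s =>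
    obtain ⟨y, rfl⟩ := hx
    exact ⟨E.e s j y, E.d_e s j y⟩

theorem Bd.of_tbd {s : ℕ} (h : TBd Tw s) : E.Bd s := by
  obtain ⟨N, hN⟩ := h
  refine ⟨N, fun j => ?_⟩
  obtain ⟨j', hj, h1⟩ := hN j
  refine ⟨j', hj, fun z hz => ?_⟩
  obtain ⟨a, b, hab, h2⟩ := h1 z hz
  exact ⟨a, b, hab, E.e_mem_bd h2⟩

/-- the fixed elements -/
def fixS (s j : ℕ) : AddSubgroup (Tw.C s j) := (E.e s j).eqLocus (AddMonoidHom.id _)

theorem mem_fixS {s j : ℕ} {x : Tw.C s j} : x ∈ E.fixS s j ↔ E.e s j x = x := Iff.rfl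

/-- The tower of the fixed elements. -/
def fix : TowerCx.{u} where
  C s j := E.fixS s j
  d s j := ((Tw.d s j).comp (E.fixS s j).subtype).codRestrict _ fun x =>
    E.mem_fixS.2 ((E.d_e s j x.1).symm.trans (congrArg (Tw.d s j) x.2))
  r s j := ((Tw.r s j).comp (E.fixS s (j + 1)).subtype).codRestrict _ fun x =>
    E.mem_fixS.2 ((E.r_e s j x.1).symm.trans (congrArg (Tw.r s j) x.2))
  d_d s j x := Subtype.ext (Tw.d_d s j x.1)
  d_r s j x := Subtype.ext (Tw.d_r s j x.1)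

/-- the underlying element -/
def val {s j : ℕ} : E.fix.C s j →+ Tw.C s j := (E.fixS s j).subtype

theorem val_injective {s j : ℕ} : Function.Injective (E.val (s := s) (j := j)) :=
  Subtype.val_injective

theorem e_val {s j : ℕ} (x : E.fix.C s j) : E.e s j (E.val x) = E.val x := x.2

/-- a fixed element -/
def mk' {s j : ℕ} (x : Tw.C s j) (h : E.e s j x = x) : E.fix.C s j := ⟨x, h⟩

theorem val_mk' {s j : ℕ} (x : Tw.C s j) (h : E.e s j x = x) : E.val (E.mk' x h) = x := rfl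

theorem val_d {s j : ℕ} (x : E.fix.C s j) : E.val (E.fix.d s j x) = Tw.d s j (E.val x) := rfl

theorem val_r {s j : ℕ} (x : E.fix.C s (j + 1)) : E.val (E.fix.r s j x) = Tw.r s j (E.val x) := rfl

theorem val_res (s : ℕ) {a b : ℕ} (h : a ≤ b) (x : E.fix.C s b) :
    E.val (E.fix.res s h x) = Tw.res s h (E.val x) := by
  induction b, h using Nat.le_induction with
  | base => rw [Tw.res_self, E.fix.res_self]
  | succ b h ih => rw [Tw.res_succ s h, E.fix.res_succ s h, ih, val_r]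

section idem

variable (hE : ∀ s j x, E.e s j (E.e s j x) = E.e s j x)

include hE

theorem surj_fix {s j : ℕ} (h : Function.Surjective (Tw.r s j)) :
    Function.Surjective (E.fix.r s j) := by
  intro x
  obtain ⟨y, hy⟩ := h (E.val x)
  refine ⟨E.mk' (E.e s (j + 1) y) (hE _ _ _), E.val_injective ?_⟩
  rw [val_r, val_mk', E.r_e, hy, e_val]

theorem proZero_fix {s : ℕ} (h : E.PZ s) : E.fix.ProZero s := by
  intro j
  obtain ⟨j', hj, h1⟩ := h j
  refine ⟨j', hj, fun z hz => ?_⟩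
  obtain ⟨y, hy⟩ := h1 (E.val z) (by rw [← val_d, hz, map_zero])
  refine ⟨E.mk' (E.e s j y) (hE _ _ _), E.val_injective ?_⟩
  rw [val_d, val_mk', E.d_e, hy, hE, ← E.res_e, e_val, val_res]

theorem mem_bd_fix {s j : ℕ} {x : E.fix.C s j} (hx : E.val x ∈ bdT Tw s j) :
    x ∈ bdT E.fix s j := by
  cases s with
  | zero =>
    have h1 : E.val x = 0 := hx
    exact E.val_injective (h1.trans (map_zero _).symm)
  | succ s =>
    obtain ⟨y, hy⟩ := hx
    refine ⟨E.mk' (E.e s j y) (hE _ _ _), E.val_injective ?_⟩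
    rw [val_d, val_mk', E.d_e, hy, e_val]

theorem tbd_fix {s : ℕ} (h : E.Bd s) : TBd E.fix s := by
  obtain ⟨N, hN⟩ := h
  refine ⟨N, fun j => ?_⟩
  obtain ⟨j', hj, h1⟩ := hN j
  refine ⟨j', hj, fun z hz => ?_⟩
  obtain ⟨a, b, hab, h2⟩ := h1 (fun i => E.val (z i)) (fun i => by rw [← val_d, hz, map_zero])
  refine ⟨a, b, hab, E.mem_bd_fix hE ?_⟩
  rwa [← map_sub, ← val_res, e_val] at h2

end idem

end TEnd

end Vale.Agent.P261Z.X
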