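import Vale.Agent.P261Z.X.Bas
import Vale.Agent.P261Z.X.Copt
import Vale.Agent.P261Z.X.Img

/-!
# P261, block X: descent for the summand cut out by an element of the group ring

`pz_of_vanX`, `bd_of_finX`: from the cohomology of `Aut H` to the tower `towerX`.
-/

open Vale.Agent.P251 Vale.Agent.P251.F Vale.Agent.P251.S Vale.Agent.P251.C Vale.Agent.P251.M
  Vale.Agent.P261Z.T2 Vale.Agent.P261Z.T1

namespace Vale.Agent.P261Z.X

section Weight

variable {G : Type} [Group G] [TopologicalSpace G] [IsTopologicalGroup G] [CompactSpace G]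
  {T' T : Type} [CommRing T'] [CommRing T] [LawRing T'] [LawRing T]
  [MulSemiringAction G T'] [MulSemiringAction G T] [LawAction G T'] [LawAction G T]

/-- Descent with bounds for any map of complexes. -/
theorem weight_gen [DiscMod G T'] [Framed T'] (hT : ∀ a, HZero G T (a + 1)) (w : ℤ)
    (ψ : ∀ b, Cob.wt T' b w →+[G] Cob.wt T b w)
    (hψ : ∀ b x, ψ (b + 1) (wtD G T' b w x) = wtD G T b w (ψ b x))
    (u : Prim T' w → Prim T w) (hu : ∀ x, (u x).1 = ψ 0 x.1) (s N : ℕ)
    (hM : HMapBd G (s + 1) N u) (z : Fin (N + 1) → Cob.wt T' (s + 1) w)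
    (hz : ∀ i (γ : G), γ • z i = z i) (hdz : ∀ i, Cob.d (s + 1) (z i).1 = 0) :
    ∃ i j, i ≠ j ∧ ∃ y : Cob T s, (∀ γ : G, γ • y = y) ∧
      Cob.d s y = (ψ (s + 1) (z i - z j)).1 := by
  obtain ⟨i, j, hij, y, hy, hdy⟩ := descent_bd (G := G) (A' := fun b => Cob.wt T' b w)
    (A := fun b => Cob.wt T b w) (fun b => wtD G T' b w) (fun b => wtD G T b w) ψ hψ
    (fun b x => Subtype.ext (Cob.d_d x.1))
    (fun b x hx => ⟨⟨Cob.ctr T' b x.1, Cob.IsWt.ctr x.2⟩,
      Subtype.ext (Cob.exact_of_framed (congrArg Subtype.val hx))⟩)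
    (fun a b => hzero_wt (hT a) w) s
    (fun c hc hdc hd => by
      let P : Prim T' w →+[G] Cob.wt T' 0 w :=
        { toFun := fun x => x.1
          map_smul' := fun _ _ => rfl
          map_zero' := rfl
          map_add' := fun _ _ => rfl }
      choose c' hc' hcc' using fun i => IsCoch.of_inj P Subtype.val_injective (hc i)
        (fun x => ⟨⟨c i x, congrArg Subtype.val (hd i x)⟩, rfl⟩)
      obtain ⟨i, j, hij, Y, hY, -, hdY⟩ := hM c' hc' (fun i => by
        funext x
        apply Subtype.val_injective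
        have h1 := congrFun (dd_mapG P (c' i)) x
        rw [show (fun x => P (c' i x)) = c i from funext (hcc' i), hdc] at h1
        exact h1.symm)
      refine ⟨i, j, hij, fun x => (Y x).1, ⟨hY.lc.comp Subtype.val, fun g x => ?_⟩, fun x => ?_,
        fun x => ?_⟩
      · exact congrArg Subtype.val (hY.equi g x)
      · exact Subtype.ext (Y x).2
      · let Q : Prim T w →+ Cob.wt T 0 w := (Prim T w).subtype
        have h1 := congrFun (dd_map Q Y) x
        refine Eq.trans ?_ h1.symm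
        change _ = (dd Y x).1
        rw [hdY, ← hcc' i x, ← hcc' j x]
        exact (hu (c' i x - c' j x)).symm)
    z hz (fun i => Subtype.ext (hdz i))
  exact ⟨i, j, hij, y.1, fun γ => congrArg Subtype.val (hy γ), congrArg Subtype.val hdy⟩

omit [IsTopologicalGroup G] [CompactSpace G] in
theorem hmapBd_of_zero {A A' : Type} [AddCommGroup A] [AddCommGroup A'] [DistribMulAction G A]
    [DistribMulAction G A'] {s : ℕ} {u : A → A'} (h : HMapZero G (s + 1) u) :
    HMapBd G (s + 1) 1 u := by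
  intro F hF hd
  obtain ⟨Y, hY, hdY⟩ := h (F 0 - F 1) ((hF 0).sub (hF 1)) (by rw [dd_sub, hd, hd, sub_self])
  exact ⟨0, 1, by decide, Y, hY, fun h => absurd h (Nat.succ_ne_zero s), hdY⟩

end Weight

section tower

variable {p n : ℕ} [Fact p.Prime] {ι : Type} {M : ℕ}

theorem xval_res (w : ℤ) (s : ℕ) {j j' : ℕ} (hj : j ≤ j') (z : (towerX p n ι M w).C s j') :
    xval ((towerX p n ι M w).res s hj z) =
      Cob.mapRing (Tr.map ι M (NN.red p n (Nat.succ_le_succ hj))) s (xval z) := by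
  induction hj with
  | refl =>
    rw [TowerCx.res_self, NN.red_self, Tr.map, Tr.mapP_id]
    exact (MvPolynomial.map_id _).symm
  | step hj ih =>
    rw [TowerCx.res_succ (towerX p n ι M w) s hj z, ih]
    change Cob.mapRing _ s (Cob.mapRing (Tr.map ι M (NN.red p n (Nat.le_succ _))) s _) = _
    rw [Cob.mapRing_mapRing, Tr.mapP_comp, NN.red_red]
    rfl

omit [Fact p.Prime] in
theorem red_surjective {j j' : ℕ} (hj : j ≤ j') : Function.Surjective (NN.red p n hj) := by
  intro y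
  obtain ⟨⟨x, _, m, rfl⟩, hx⟩ := IsLocalization.surj (Submonoid.powers
    (Ideal.Quotient.mk (Laz.IJ p n j) (Laz.v p n))) y
  obtain ⟨x, rfl⟩ := Ideal.Quotient.mk_surjective x
  have h1 : ∀ a, NN.red p n hj (algebraMap (QN p n j') _ (Ideal.Quotient.mk _ a)) =
      algebraMap (QN p n j) _ (Ideal.Quotient.mk _ a) := fun a => IsLocalization.Away.lift_eq _ _ _
  obtain ⟨u, hu⟩ := (IsLocalization.Away.algebraMap_isUnit (S := NN p n j')
    (Ideal.Quotient.mk (Laz.IJ p n j') (Laz.v p n))).pow m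
  refine ⟨algebraMap (QN p n j') _ (Ideal.Quotient.mk _ x) * ((u⁻¹ : (NN p n j')ˣ) : NN p n j'), ?_⟩
  rw [map_mul, h1, ← hx, mul_assoc, map_pow, ← h1, ← map_pow, ← hu, ← map_mul, Units.mul_inv,
    map_one, mul_one]

theorem towerX_surj [Fintype ι] [DecidableEq ι] (w : ℤ) (s j : ℕ) :
    Function.Surjective ((towerX p n ι M w).r s j) := by
  rintro ⟨y, hy⟩
  obtain ⟨x, h1⟩ := Cob.mapRing_surjective (n := s)
    (map_surjective (ι := ι) (M := M) (red_surjective (p := p) (n := n) (Nat.le_succ (j + 1)))) y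
  refine ⟨⟨Cob.proj w x, Cob.isWt_proj w x⟩, Subtype.ext ?_⟩
  change Cob.mapRing (Tr.map ι M (NN.red p n (Nat.le_succ (j + 1)))) s (Cob.proj w x) = y
  rw [← Cob.proj_mapRing (isLawHom_redN p n ι M _), h1, Cob.proj_of_isWt hy, if_pos rfl]

/-- `epsX` in the form used by the topological part. -/
noncomputable def epsE (p n : ℕ) [Fact p.Prime] {ι : Type} (M : ℕ) [Fintype ι] [DecidableEq ι]
    (c : MonoidAlgebra ℤ (Equiv.Perm ι)) (w : ℤ) : TEnd (towerX p n ι M w) :=
  ⟨(epsX p n M c w).E, (epsX p n M c w).d_E, (epsX p n M c w).r_E⟩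

theorem xval_epsE [Fintype ι] [DecidableEq ι] (c : MonoidAlgebra ℤ (Equiv.Perm ι)) (w : ℤ)
    (s j : ℕ) (x : (towerX p n ι M w).C s j) :
    xval ((epsE p n M c w).e s j x) = epsC (NN p n (j + 1)) M c s (xval x) := rfl

variable {G : Type} [Group G] [TopologicalSpace G] [IsTopologicalGroup G] [CompactSpace G]
  (X : TTower p n G) [Fintype ι] [DecidableEq ι] (c : MonoidAlgebra ℤ (Equiv.Perm ι)) (w : ℤ)

/-- One level of the descent. -/
theorem level {j j' : ℕ} (hj : j ≤ j') (s N : ℕ)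
    (hM : HMapBd G s N fun x => epsP G (X.T j) M c w
      (redP ι M (X.red_law hj) (X.red_smul hj) w x))
    (z : Fin (N + 1) → (towerX p n ι M w).C s j')
    (hz : ∀ i, (towerX p n ι M w).d s j' (z i) = 0) :
    ∃ a b, a ≠ b ∧ (epsX p n M c w).E s j ((towerX p n ι M w).res s hj (z a - z b)) ∈
      bdT (towerX p n ι M w) s j := by
  have hι : ∀ j, IsLawHom (Tr.map ι M (X.ι j)) := fun j => Tr.isLawHom_mapP (X.ι_law j) id
  have hb := fun j => invBasis_tr (ι := ι) (M := M) (X.inv j)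
  have hw : ∀ i, Cob.IsWt w (xval (z i)) := fun i =>
    (show Cob.wt (Tr (NN p n (j' + 1)) ι M) s w from z i).2
  have hd : ∀ i, Cob.d s (xval (z i)) = 0 := fun i => congrArg Subtype.val (hz i)
  have hd' : ∀ i, Cob.d s (Cob.mapRing (Tr.map ι M (X.ι j')) s (xval (z i))) = 0 := fun i => by
    rw [← Cob.mapRing_d (hι j'), hd, map_zero]
  have key : ∀ a b, epsC (X.T j) M c s (Cob.mapRing (Tr.map ι M (X.red hj)) s
      (Cob.mapRing (Tr.map ι M (X.ι j')) s (xval (z a)) -
        Cob.mapRing (Tr.map ι M (X.ι j')) s (xval (z b)))) =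
      Cob.mapRing (Tr.map ι M (X.ι j)) s
        (xval ((epsX p n M c w).E s j ((towerX p n ι M w).res s hj (z a - z b)))) := by
    intro a b
    rw [xval_epsX, mapRing_epsC, xval_res, ← map_sub, Cob.mapRing_mapRing, Cob.mapRing_mapRing,
      Tr.mapP_comp, Tr.mapP_comp, X.ι_red hj]
    rfl
  cases s with
  | zero =>
    obtain ⟨a, b, hab, h1⟩ := hM.zero
      (fun i => (⟨⟨Cob.mapRing (Tr.map ι M (X.ι j')) 0 (xval (z i)),
        Cob.IsWt.mapRing (hι j') (hw i)⟩, hd' i⟩ : Prim (Tr (X.T j') ι M) w))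
      (fun i g => Subtype.ext (Subtype.ext ((hb j').fix_cob _ g)))
    refine ⟨a, b, hab, xval_injective ?_⟩
    have h2 := congrArg (fun x : Prim (Tr (X.T j) ι M) w => x.1.1) h1
    exact DN.map_eq_zero (hb j) _ ((key a b).symm.trans h2)
  | succ s =>
    obtain ⟨a, b, hab, y, hy, hdy⟩ := weight_gen (fun a => hzero_tr (X.hzero j a)) w
      (fun b => (epsW G (X.T j) M c b w).comp
        (wtMap (Tr.isLawHom_mapP (X.red_law hj) id) (mapP_smul (X.red_smul hj) id) b w))
      (fun b x => Subtype.ext (by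
        change epsC _ M c (b + 1) (Cob.mapRing _ (b + 1) (Cob.d b x.1)) =
          Cob.d b (epsC _ M c b (Cob.mapRing _ b x.1))
        rw [d_epsC, Cob.mapRing_d (Tr.isLawHom_mapP (X.red_law hj) id)]))
      _ (fun _ => rfl) s N hM
      (fun i => ⟨Cob.mapRing (Tr.map ι M (X.ι j')) (s + 1) (xval (z i)),
        Cob.IsWt.mapRing (hι j') (hw i)⟩)
      (fun i γ => Subtype.ext ((hb j').fix_cob _ γ)) hd'
    obtain ⟨y', hy', hdy'⟩ := DN.retract (hι j) (hb j) _
      (show Cob.wt (Tr (NN p n (j + 1)) ι M) (s + 1) w from (epsX p n M c w).E (s + 1) j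
        ((towerX p n ι M w).res (s + 1) hj (z a - z b))).2 y hy (hdy.trans (key a b))
    exact ⟨a, b, hab, (show Cob.wt (Tr (NN p n (j + 1)) ι M) s w from ⟨y', hy'⟩),
      xval_injective hdy'⟩

end tower

section LT

variable {p n : ℕ} [Fact p.Prime] {k : Type} [Field k] (D : LTD p n k) {ι : Type} [Fintype ι]
  [DecidableEq ι] {M : ℕ} {c : MonoidAlgebra ℤ (Equiv.Perm ι)}

theorem hmapBd_prim (w : ℤ) {j j' : ℕ} (hj : j ≤ j') {s N : ℕ}
    (h : HMapBd D.GG s N fun x => epsV D j M c (-w) (redV D ι M (-w) hj x)) :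
    HMapBd D.GG s N fun x => epsP D.GG (D.tower.T j) M c w
      (redP ι M (D.tower.red_law hj) (D.tower.red_smul hj) w x) := by
  refine HMapBd.transport (pv D j' ι M w) (pv_bijective D j' ι M w) (pv D j ι M w)
    (fun x => ?_) h
  rw [← pv_eps, ← pv_red]
  rfl

/-- Finiteness for the tower. -/
theorem bd_of_finX (h : FinX D M c) (w : ℤ) (s : ℕ) : (epsX p n M c w).Bd s := by
  have _ := D.finite
  obtain ⟨N, hN⟩ := h (-w) s
  refine ⟨N, fun j => ?_⟩
  obtain ⟨j', hj, hM⟩ := hN j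
  exact ⟨j', hj, level D.tower c w hj s N (hmapBd_prim D w hj hM)⟩

omit [Fintype ι] [DecidableEq ι] in
theorem redV_self (w : ℤ) (j : ℕ) (x : VX D j ι M w) : redV D ι M w (le_refl j) x = x := by
  have h : (twR D (le_refl j)).r = RingHom.id _ := RingHom.ext fun y => by
    obtain ⟨y, rfl⟩ := Ideal.Quotient.mk_surjective y
    rfl
  change Tr.map ι M (twR D (le_refl j)).r x = x
  rw [h, Tr.map, Tr.mapP_id]
  rfl

/-- The vanishing line for the tower. -/
theorem pz_of_vanX (h : VanX D M c) : ∃ s₀ : ℕ, ∀ (w : ℤ) (s : ℕ), s₀ ≤ s →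
    (epsX p n M c w).PZ s := by
  have _ := D.finite
  obtain ⟨K, hK⟩ := h
  refine ⟨K, fun w s hs j => ⟨j, le_rfl, fun z hz => ?_⟩⟩
  have h1 : HMapBd D.GG (s + 1) 1 fun x => epsV D j M c (-w) (redV D ι M (-w) (le_refl j) x) := by
    simp only [redV_self]
    exact hmapBd_of_zero (hK j (-w) (s + 1) (by omega))
  obtain ⟨a, b, hab, y, hy⟩ := level D.tower c w (le_refl j) (s + 1) 1 (hmapBd_prim D w _ h1)
    ![z, 0] (by
      intro i
      fin_cases i
      · exact hz
      · exact map_zero _)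
  fin_cases a <;> fin_cases b
  · exact absurd rfl hab
  · exact ⟨y, hy.trans (by simp)⟩
  · exact ⟨-y, by rw [map_neg, hy]; simp⟩
  · exact absurd rfl hab

theorem bdE_of_finX (h : FinX D M c) (w : ℤ) (s : ℕ) : (epsE p n M c w).Bd s :=
  bd_of_finX D h w s

theorem pzE_of_vanX (h : VanX D M c) : ∃ s₀ : ℕ, ∀ (w : ℤ) (s : ℕ), s₀ ≤ s →
    (epsE p n M c w).PZ s := pz_of_vanX D h

end LT

end Vale.Agent.P261Z.X
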