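import Vale.Agent.P261Z.X.Defs
import Vale.Agent.P261Z.T2.BDefs

/-!
# P261, block T2 (base): the cobar model of a power of a projective space (statement)
-/

open CategoryTheory MonoidalCategory Limits Pretriangulated

universe v u

namespace Vale.Agent.P261Z.X

open Vale.Agent.P251 Vale.Agent.P251.T Vale.Agent.P251.S Vale.Agent.P251.I Vale.Agent.P251.M
  Vale.Agent.P251.F Vale.Agent.P261Z.T2

variable {T : Type u} [Category.{v} T] [Preadditive T] [HasZeroObject T]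
    [HasShift T ℤ] [∀ n : ℤ, (shiftFunctor T n).Additive] [Pretriangulated T] [IsTriangulated T]
    [MonoidalCategory T] [SymmetricCategory T] [TensorTriangulated T] [MonoidalClosed T]
    [HasCoproducts.{0} T] [HasProducts.{0} T] [StableCat T]

/-- The cobar complex `Hom (Y⟦t⟧, L (Q (s + 1) ⊗ C))` for `Y = (CP ^ m) ^ B`: it vanishes for odd
`t` and is the limit of `towerX` for even `t`, compatibly with the permutations of `B`. -/
structure XT (S : SpaceFunctor T) (D : MUData T) (U : UnitCof D.R) (p n : ℕ) [Fact p.Prime]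
    (C : T) {K : T} (F : LocFunctor K) (B : Type) [Fintype B] [DecidableEq B] (m : ℕ) where
  odd : ∀ (s : ℕ) (t : ℤ), Odd t → ∀ x : (S.S.obj (YF B m))⟦t⟧ ⟶
    (tensorRight C ⋙ F.L).obj (U.cobar.Q (s + 1) (𝟙_ T)), x = 0
  /-- the model -/
  Φ : ∀ w : ℤ, U.CobModel (𝟙_ T) (tensorRight C ⋙ F.L) (S.S.obj (YF B m)) w
    (towerX p n B (m + 1) w)
  eqv : ∀ (w : ℤ) (s : ℕ) (σ : Equiv.Perm B) (x : (S.S.obj (YF B m))⟦2 * w⟧ ⟶
      (tensorRight C ⋙ F.L).obj (U.cobar.Q (s + 1) (𝟙_ T))) (j : ℕ),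
    xval (((Φ w).φ s ((S.S.map (Dl.pmF (CPF m) σ))⟦2 * w⟧' ≫ x)).1 j) =
      Cob.mapRing (Tr.perm (NN p n (j + 1)) (m + 1) σ⁻¹) s (xval (((Φ w).φ s x).1 j))

end Vale.Agent.P261Z.X
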