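import Vale.Agent.P261Z.X.Asm
import Vale.Agent.P261Z.X.XT
import Vale.Agent.P261Z.X.Desc
import Vale.Agent.P261Z.T2.DSmith
import Vale.Agent.P261Z.T1.MainK

/-!
# P261, block T2: the last glue

* `Fi.bar c`: the antipode of the group ring, `Fi.isIdem_bar`;
* `base_sm`: the action of an idempotent of the group ring on `(CP ^ m) ^ B` is small;
* `finite_of_delta`, `ft_of_delta`: finite type from theorem DELTA, the cobar model, the vanishing
  line and the finiteness with coefficients.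
-/

open CategoryTheory MonoidalCategory Limits Pretriangulated

set_option linter.unusedSectionVars false

universe v u

namespace Vale.Agent.P261Z.X

open Vale.Agent.P251 Vale.Agent.P251.T Vale.Agent.P251.S Vale.Agent.P251.I Vale.Agent.P251.M
  Vale.Agent.P251.F Vale.Agent.P261Z.T2 Vale.Agent.P261Z.T1 Vale.Agent.P261Z.JM

namespace Fi

section bar

variable {G : Type} [Group G]

/-- the antipode of the group ring -/
noncomputable def bar (c : MonoidAlgebra ℤ G) : MonoidAlgebra ℤ G :=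
  MonoidAlgebra.ofCoeff (Finsupp.equivMapDomain (Equiv.inv G) c.coeff)

theorem coeff_bar (c : MonoidAlgebra ℤ G) (g : G) : (bar c).coeff g = c.coeff g⁻¹ := rfl

theorem bar_sq [Fintype G] {c : MonoidAlgebra ℤ G} {m : ℤ} (h : c * c = m • c) :
    bar c * bar c = m • bar c := by
  ext g
  have h1 := congrArg (fun x : MonoidAlgebra ℤ G => x.coeff g⁻¹) h
  simp only [MonoidAlgebra.coeff_smul_apply] at h1
  rw [MonoidAlgebra.coeff_smul_apply, coeff_bar, ← h1, MonoidAlgebra.coeff_mul_apply_left,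
    MonoidAlgebra.coeff_mul_apply_right, Finsupp.sum_fintype _ _ (fun _ => zero_mul _),
    Finsupp.sum_fintype _ _ (fun _ => mul_zero _), ← Equiv.sum_comp (Equiv.inv G)]
  refine Finset.sum_congr rfl fun a _ => ?_
  rw [coeff_bar, coeff_bar, Equiv.inv_apply, inv_inv, mul_inv_rev, mul_comm]

variable {P : Type} [Fintype P] [DecidableEq P]

theorem mat_bar {ι : Type} [DecidableEq ι] (c : MonoidAlgebra ℤ (Equiv.Perm P)) (a b : P → ι) :
    mat (bar c) a b = mat c b a := by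
  rw [mat, mat, ← Equiv.sum_comp (Equiv.inv (Equiv.Perm P))]
  refine Finset.sum_congr rfl fun σ _ => ?_
  rw [coeff_bar, Equiv.inv_apply, inv_inv]
  refine if_congr ⟨?_, ?_⟩ rfl rfl
  · rintro rfl
    funext x
    simp
  · rintro rfl
    funext x
    simp

theorem isIdem_bar {p M : ℕ} {c : MonoidAlgebra ℤ (Equiv.Perm P)} {m : ℤ} (h : IsIdem p M c m) :
    IsIdem p M (bar c) m where
  unit := h.unit
  sq := bar_sq h.sq
  kill ι _ a b hb := by
    rw [mat_bar]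
    by_cases h1 : ∃ σ : Equiv.Perm P, b ∘ σ = a
    · obtain ⟨σ, rfl⟩ := h1
      refine h.kill ι _ _ (lt_of_le_of_lt (Finset.card_le_card fun x hx => ?_) hb)
      obtain ⟨y, -, rfl⟩ := Finset.mem_image.1 hx
      exact Finset.mem_image.2 ⟨σ y, Finset.mem_univ _, rfl⟩
    · exact Finset.sum_eq_zero fun σ _ => if_neg fun h2 => h1 ⟨σ, h2⟩
  ne := by
    obtain ⟨a, b, hab⟩ := h.ne
    exact ⟨b, a, by rwa [mat_bar]⟩
  trace := by simpa only [mat_bar] using h.trace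

end bar

/-- `xval` as an additive map -/
noncomputable def xvalH (p n : ℕ) [Fact p.Prime] (ι : Type) (M : ℕ) (w : ℤ) (s j : ℕ) :
    (towerX p n ι M w).lim s →+ Cob (Tr (NN p n (j + 1)) ι M) s where
  toFun x := xval (x.1 j)
  map_zero' := rfl
  map_add' _ _ := rfl

end Fi

variable {T : Type u} [Category.{v} T] [Preadditive T] [HasZeroObject T]
    [HasShift T ℤ] [∀ n : ℤ, (shiftFunctor T n).Additive] [Pretriangulated T] [IsTriangulated T]
    [MonoidalCategory T] [SymmetricCategory T] [TensorTriangulated T] [MonoidalClosed T]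
    [HasCoproducts.{0} T] [HasProducts.{0} T] [StableCat T]

theorem XT.eqv_actS {S : SpaceFunctor T} {D : MUData T} {U : UnitCof D.R} {p n : ℕ}
    [Fact p.Prime] {C K : T} {F : LocFunctor K} {B : Type} [Fintype B] [DecidableEq B] {m : ℕ}
    (Z : XT S D U p n C F B m) (c : MonoidAlgebra ℤ (Equiv.Perm B)) (w : ℤ) :
    Eqv (Z.Φ w) (Dl.actS S B (CPF m) c) (epsX p n (m + 1) (Fi.bar c) w) := by
  intro s x j
  apply xval_injective
  have h1 : (Dl.actS S B (CPF m) c : S.S.obj (YF B m) ⟶ S.S.obj (YF B m)) =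
      ∑ σ : Equiv.Perm B, c.coeff σ • S.S.map (Dl.pmF (CPF m) σ) := by
    exact (Dl.actS_apply S B (CPF m) c).trans (Finsupp.sum_fintype _ _ fun _ => zero_smul ℤ _)
  rw [xval_epsX, epsC_apply, ← Equiv.sum_comp (Equiv.inv (Equiv.Perm B)), h1, Functor.map_sum,
    Preadditive.sum_comp, map_sum]
  refine (map_sum (Fi.xvalH p n B (m + 1) w s j) _ _).trans (Finset.sum_congr rfl fun σ _ => ?_)
  rw [Functor.map_zsmul, Preadditive.zsmul_comp, map_zsmul, map_zsmul, Fi.coeff_bar,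
    Equiv.inv_apply, inv_inv, ← Z.eqv w s σ x j]
  rfl

/-- **The base case**: the action of `c` on `(CP ^ m) ^ B` is small for `L (S / p)`. -/
theorem base_sm (S : SpaceFunctor T) (D : MUData T) (U : UnitCof D.R) {p n : ℕ} [Fact p.Prime]
    {v : ℕ → (𝟙_ T ⟶ D.P)} (Dk : KosData D.P (p : ℤ) n v) (F : LocFunctor Dk.K) {C : T}
    {i : 𝟙_ T ⟶ C} {δ : C ⟶ (𝟙_ T)⟦(1 : ℤ)⟧}
    (hC : Triangle.mk ((p : ℤ) • 𝟙 (𝟙_ T)) i δ ∈ distTriang T) {B : Type} [Fintype B]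
    [DecidableEq B] {m : ℕ} (Z : XT S D U p n C F B m) {c : MonoidAlgebra ℤ (Equiv.Perm B)}
    {μ : ℤ} (hc : c * c = μ • c) (hμ : (p : ℤ) ^ 2 ∣ μ - 1) {k : Type} [Field k] (E : LTD p n k)
    (hV : VanX E (m + 1) (Fi.bar c)) (hF : FinX E (m + 1) (Fi.bar c)) :
    Dl.Sm (F.L.obj C) (Dl.actS S B (CPF m) c) := by
  obtain ⟨s₀, hs₀⟩ := pz_of_vanX E hV
  exact sm_of_model D U Dk F hC (Dl.fn_S S _) _ (by rw [← map_mul, hc, map_smul]) hμ Z.Φ
    (fun w => epsX p n (m + 1) (Fi.bar c) w) (Z.eqv_actS c) Z.odd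
    (fun w s j => towerX_surj w s j) (bd_of_finX E hF) hs₀

/-- The input from group cohomology: for some `M ≥ 1` every idempotent which kills the words with
less than `M` letters has a vanishing line and finite cohomology. -/
def GX {p n : ℕ} [Fact p.Prime] {k : Type} [Field k] (E : LTD p n k) : Prop :=
  ∃ M : ℕ, 1 ≤ M ∧ ∀ (r : ℕ) (c : MonoidAlgebra ℤ (Equiv.Perm (Fin r))) (μ : ℤ),
    IsIdem p M c μ → (p : ℤ) ∣ μ - 1 → VanX E M c ∧ FinX E M c

theorem finite_of_delta (S : SpaceFunctor T) (D : MUData T) (U : UnitCof D.R) {p n : ℕ}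
    [hp : Fact p.Prime] {v : ℕ → (𝟙_ T ⟶ D.P)} (Dk : KosData D.P (p : ℤ) n v)
    (F : LocFunctor Dk.K) {C : T} {i : 𝟙_ T ⟶ C} {δ : C ⟶ (𝟙_ T)⟦(1 : ℤ)⟧}
    (hC : Triangle.mk ((p : ℤ) • 𝟙 (𝟙_ T)) i δ ∈ distTriang T)
    (hZ : ∀ r m : ℕ, Nonempty (XT S D U p n C F (Fin r) m)) (hE : EVCP S) (hΔ : Dl.DELTA S)
    {k : Type} [Field k] (E : LTD p n k) (hG : GX E) (t : ℤ) :
    Finite ((𝟙_ T)⟦t⟧ ⟶ F.L.obj C) := by
  obtain ⟨M, hM, hG⟩ := hG
  obtain ⟨m, rfl⟩ : ∃ m, M = m + 1 := ⟨M - 1, by omega⟩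
  obtain ⟨r, c, μ, N, d, hc, hN, hμ, hd, htr⟩ := Dl.exists_smith_fixTr hp.out hM 2
  have h2 : (p : ℤ) ^ 2 ∣ μ - 1 := (pow_dvd_pow _ hN).trans hμ
  obtain ⟨hV, hF⟩ := hG r _ μ (Fi.isIdem_bar hc) ((dvd_pow_self _ two_ne_zero).trans h2)
  obtain ⟨Z⟩ := hZ r m
  have h3 : ((p : ℤ) ^ 2) • 𝟙 (F.L.obj C) = 0 := by
    rw [← F.L.map_id, ← F.L.map_zsmul, sq, mul_smul, sq_smul_cofibre hC, F.L.map_zero]
  have h4 := hΔ (F.L.obj C) p 2 hp.out h3 (CPF m) (m + 1) (hE m) (Fin r) c N d hd htr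
    (base_sm S D U Dk F hC Z hc.sq h2 E hV hF) (-t)
  let e : ((𝟙_ T)⟦t⟧)⟦-t⟧ ≅ 𝟙_ T := (shiftFunctorCompIsoId T t (-t) (by simp)).app _
  refine Finite.of_injective (fun x : (𝟙_ T)⟦t⟧ ⟶ F.L.obj C => e.inv ≫ x⟦-t⟧') fun x y h => ?_
  exact (shiftFunctor T (-t)).map_injective ((cancel_epi e.inv).1 h)

/-- The cobar models exist for `D`. -/
def XTall (S : SpaceFunctor T) (D : MUData T) (p n : ℕ) [Fact p.Prime] : Prop :=
  ∀ (U : UnitCof D.R) (C : T) (i : 𝟙_ T ⟶ C) (δ : C ⟶ (𝟙_ T)⟦(1 : ℤ)⟧),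
    Triangle.mk ((p : ℤ) • 𝟙 (𝟙_ T)) i δ ∈ distTriang T →
      ∀ (Dk : KosData D.P (p : ℤ) n (D.vs p)) (F : LocFunctor Dk.K) (r m : ℕ),
        Nonempty (XT S D U p n C F (Fin r) m)

/-- **Finite type** from theorem DELTA, the cobar models and group cohomology. -/
theorem ft_of_delta {T : St.SHCat} (S : St.Susp T) {D : MUData T.C}
    (hD : MUUniv (M.lineIso S.toSpaceFunctor) D) {p n : ℕ} [Fact p.Prime] (hp : T3.MUAt D p)
    (hn : 1 ≤ n) (hZ : XTall S.toSpaceFunctor D p n) (hE : EVCP S.toSpaceFunctor)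
    (hΔ : Dl.DELTA S.toSpaceFunctor) {k : Type} [Field k] (E : LTD p n k) (hG : GX E) :
    FT S p n := by
  have := locallySmall_self.{0} T.C
  obtain ⟨U⟩ := exists_unitCof D.R
  obtain ⟨C, i, δ, hC⟩ := distinguished_cocone_triangle ((p : ℤ) • 𝟙 (𝟙_ T.C))
  obtain ⟨Dk⟩ := exists_kosData D.P (p : ℤ) n (D.vs p)
  obtain ⟨F⟩ := Z.nonempty_locFunctor' Dk.K
  exact lastK hD hp hn hC Dk F
    (finite_of_delta S.toSpaceFunctor D U Dk F hC (hZ U C i δ hC Dk F) hE hΔ E hG)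

end Vale.Agent.P261Z.X
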