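import Vale.Agent.P261Z.X.Cut
import Vale.Agent.P261Z.X.Img
import Vale.Agent.P261Z.X.Defs
import Vale.Agent.P261Z.T2.DTr
import Vale.Agent.P261Z.T1.Last

/-!
# P261, block T2 (base): assembly

If the cobar complexes `Hom (Y⟦2 w⟧, L (Q ⊗ C))` are limits of towers on which `f : Y ⟶ Y` acts by
an endomorphism with a vanishing line and bounded stable images, then `f` is small for `L C`.
-/

open CategoryTheory MonoidalCategory Limits Pretriangulated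

set_option linter.unusedSectionVars false

universe v u w

namespace Vale.Agent.P261Z.X

open Vale.Agent.P251 Vale.Agent.P251.T Vale.Agent.P251.S Vale.Agent.P251.I Vale.Agent.P251.M
  Vale.Agent.P261Z.T1

/-- the same data as a `TEnd` -/
def TwEnd.toT {Tw : TowerCx.{w}} (e : TwEnd Tw) : TEnd Tw := ⟨e.E, e.d_E, e.r_E⟩

section model

variable {T : Type u} [Category.{v} T] [Preadditive T] [HasZeroObject T] [HasShift T ℤ]
  [∀ n : ℤ, (shiftFunctor T n).Additive] [Pretriangulated T] [MonoidalCategory T]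
  [SymmetricCategory T] [TensorTriangulated T]

theorem thick_of_fn {Y : T} (h : Dl.Fn Y) : Thick Y := by
  induction h with
  | zero h => exact Thick.of_isZero h
  | sphere k => exact Thick.one.shift _
  | ext Δ hΔ _ _ h₁ h₃ => exact Thick.ext₂ hΔ h₁ h₃

/-- `f` acts as an idempotent on the maps to `G C`. -/
theorem comp_comp_eq {G : T ⥤ T} [G.Additive] {C Y : T} {f : Y ⟶ Y} {μ : ℤ} (hf : f ≫ f = μ • f)
    (hμ : μ • 𝟙 C = 𝟙 C) (t : ℤ) (y : Y⟦t⟧ ⟶ G.obj C) : f⟦t⟧' ≫ f⟦t⟧' ≫ y = f⟦t⟧' ≫ y := by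
  have h1 : μ • 𝟙 (G.obj C) = 𝟙 _ := by rw [← G.map_id, ← G.map_zsmul, hμ]
  rw [← Functor.map_comp_assoc, hf, Functor.map_zsmul, Preadditive.zsmul_comp,
    ← Category.comp_id (f⟦t⟧' ≫ y), ← Preadditive.comp_zsmul, h1]

variable {R : T} [MonObj R] {U : UnitCof R} {L : T ⥤ T} [L.CommShift ℤ] [L.IsTriangulated]
  {C Y M : T} {f : Y ⟶ Y} {w : ℤ} {Tw : TowerCx.{w}}

/-- The model `Φ` turns `f` into `E`. -/
def Eqv (Φ : U.CobModel (𝟙_ T) (tensorRight C ⋙ L) Y w Tw) (f : Y ⟶ Y) (E : TwEnd Tw) : Prop :=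
  ∀ (s : ℕ) (x : Y⟦2 * w⟧ ⟶ (tensorRight C ⋙ L).obj (U.cobar.Q (s + 1) (𝟙_ T))) (j : ℕ),
    (Φ.φ s (f⟦2 * w⟧' ≫ x)).1 j = E.E s j ((Φ.φ s x).1 j)

namespace As

variable (κ : Cut L C f M) (Φ : U.CobModel (𝟙_ T) (tensorRight C ⋙ L) Y w Tw) {E : TwEnd Tw}
  (hE : Eqv Φ f E)

/-- the comparison map for the summand -/
noncomputable def phi (s : ℕ) :
    ((𝟙_ T)⟦2 * w⟧ ⟶ (tensorRight M ⋙ L).obj (U.cobar.Q (s + 1) (𝟙_ T))) →+ E.toT.fix.lim s :=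
  AddMonoidHom.mk' (fun x => ⟨fun j => E.toT.mk' ((Φ.φ s (κ.κ _ _ x)).1 j)
      ((hE s _ j).symm.trans (congrArg (fun y => (Φ.φ s y).1 j) (κ.fix _ _ x))),
    fun j => E.toT.val_injective ((Φ.φ s (κ.κ _ _ x)).2 j)⟩)
    (fun x y => Subtype.ext (funext fun j => E.toT.val_injective
      (congrArg (fun z : Tw.lim s => z.1 j)
        ((congrArg (Φ.φ s) (map_add (κ.κ _ _) x y)).trans (map_add (Φ.φ s) _ _)))))

theorem val_phi (s : ℕ)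
    (x : (𝟙_ T)⟦2 * w⟧ ⟶ (tensorRight M ⋙ L).obj (U.cobar.Q (s + 1) (𝟙_ T))) (j : ℕ) :
    E.toT.val ((phi κ Φ hE s x).1 j) = (Φ.φ s (κ.κ _ _ x)).1 j := rfl

theorem phi_bijective (s : ℕ) : Function.Bijective (phi κ Φ hE s) := by
  constructor
  · intro x y hxy
    apply κ.inj
    apply (Φ.φ s).injective
    exact Subtype.ext (funext fun j =>
      congrArg (fun z : E.toT.fix.lim s => E.toT.val (z.1 j)) hxy)
  · intro z
    obtain ⟨y, hy⟩ := (Φ.φ s).surjective ⟨fun j => E.toT.val (z.1 j), fun j =>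
      congrArg E.toT.val (z.2 j)⟩
    obtain ⟨x, hx⟩ := κ.surj _ _ y (by
      apply (Φ.φ s).injective
      refine Subtype.ext (funext fun j => (hE s y j).trans ?_)
      rw [hy]
      exact E.toT.e_val (z.1 j))
    refine ⟨x, Subtype.ext (funext fun j => E.toT.val_injective ?_)⟩
    rw [val_phi, hx, hy]

/-- The model for the summand. -/
noncomputable def model : U.CobModel (𝟙_ T) (tensorRight M ⋙ L) (𝟙_ T) w E.toT.fix where
  φ s := AddEquiv.ofBijective (phi κ Φ hE s) (phi_bijective κ Φ hE s)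
  φ_d s x j := E.toT.val_injective (by
    have h1 := κ.nat (U.cobar.d (s + 1) (𝟙_ T)) (2 * w) x
    exact (congrArg (fun y => (Φ.φ (s + 1) y).1 j) h1).trans (Φ.φ_d s (κ.κ _ _ x) j))

include hE in
theorem idem {μ : ℤ} (hf : f ≫ f = μ • f) (hμ : μ • 𝟙 C = 𝟙 C)
    (hsurj : ∀ s j, Function.Surjective (Tw.r s j)) : E.Idem := by
  intro s j x
  obtain ⟨y, rfl⟩ := exists_lim Tw (hsurj s) j x
  obtain ⟨z, rfl⟩ := (Φ.φ s).surjective y
  rw [← hE, ← hE]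
  exact congrArg (fun y => (Φ.φ s y).1 j)
    (comp_comp_eq (G := tensorLeft (U.cobar.Q (s + 1) (𝟙_ T)) ⋙ L) hf hμ (2 * w) z)

end As

/-- A map with finite image on `Hom (Y⟦t⟧, Λ)` for all `t` is small. -/
theorem sm_of_finite {Λ : T} (f : End Y)
    (h : ∀ t : ℤ, (Set.range fun x : Y⟦t⟧ ⟶ Λ => (f : Y ⟶ Y)⟦t⟧' ≫ x).Finite) : Dl.Sm Λ f := by
  intro t
  let φ : (Y ⟶ Λ⟦t⟧) →+ (Y ⟶ Λ⟦t⟧) := Preadditive.leftComp _ (f : Y ⟶ Y)
  let e : (Λ⟦t⟧)⟦-t⟧ ≅ Λ := (shiftFunctorCompIsoId T t (-t) (by simp)).app Λ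
  have h1 : (Set.range φ).Finite := by
    refine Set.Finite.of_finite_image (f := fun y : Y ⟶ Λ⟦t⟧ => y⟦-t⟧' ≫ e.hom)
      ((h (-t)).subset ?_) ?_
    · rintro _ ⟨_, ⟨x, rfl⟩, rfl⟩
      exact ⟨x⟦-t⟧' ≫ e.hom, ((Functor.map_comp_assoc _ _ _ _).symm)⟩
    · intro x _ y _ hxy
      exact (shiftFunctor T (-t)).map_injective ((cancel_mono e.hom).1 hxy)
  have h2 : Finite φ.range := h1.to_subtype
  have h3 : φ.ker.FiniteIndex := AddSubgroup.finiteIndex_ker φ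
  refine AddSubgroup.finiteIndex_of_le (H := φ.ker) fun x hx => ⟨1, ?_⟩
  rw [pow_one]
  exact hx

end model

variable {T : Type u} [Category.{v} T] [Preadditive T] [HasZeroObject T]
    [HasShift T ℤ] [∀ n : ℤ, (shiftFunctor T n).Additive] [Pretriangulated T] [IsTriangulated T]
    [MonoidalCategory T] [SymmetricCategory T] [TensorTriangulated T] [MonoidalClosed T]
    [HasCoproducts.{0} T] [HasProducts.{0} T] [StableCat T]

/-- **The image of `f` on `Hom (Y⟦t⟧, L C)` is finite.** -/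
theorem finite_img (D : MUData T) (U : UnitCof D.R) {p : ℤ} {h : ℕ} {v : ℕ → (𝟙_ T ⟶ D.P)}
    (Dk : KosData D.P p h v) (F : LocFunctor Dk.K) (C : T) {Y : T} (hY : Thick Y) (f : Y ⟶ Y)
    {μ : ℤ} (hf : f ≫ f = μ • f) (hμ : μ • 𝟙 C = 𝟙 C) {Tw : ℤ → TowerCx.{w}}
    (Φ : ∀ w, U.CobModel (𝟙_ T) (tensorRight C ⋙ F.L) Y w (Tw w)) (E : ∀ w, TwEnd (Tw w))
    (hE : ∀ w, Eqv (Φ w) f (E w))
    (hodd : ∀ (s : ℕ) (t : ℤ), Odd t →
      ∀ x : Y⟦t⟧ ⟶ (tensorRight C ⋙ F.L).obj (U.cobar.Q (s + 1) (𝟙_ T)), x = 0)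
    (hsurj : ∀ w s j, Function.Surjective ((Tw w).r s j)) (hb : ∀ w s, (E w).Bd s) {s₀ : ℕ}
    (hz : ∀ w s, s₀ ≤ s → (E w).PZ s) (t : ℤ) :
    (Set.range fun x : Y⟦t⟧ ⟶ F.L.obj C => f⟦t⟧' ≫ x).Finite := by
  obtain ⟨M, ⟨κ⟩⟩ := exists_cut F C hY f hf hμ
  have hI : ∀ w, (E w).Idem := fun w => As.idem (Φ w) (hE w) hf hμ (hsurj w)
  have h1 := finite_of_model D U Dk F M (fun w => As.model κ (Φ w) (hE w))
    (fun s t ht x => κ.inj _ _ ((hodd s t ht _).trans (map_zero _).symm))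
    (fun w s j => (E w).toT.surj_fix (hI w) (hsurj w s j))
    (fun w s => (E w).toT.tbd_fix (hI w) (hb w s))
    (fun w s hs => (E w).toT.proZero_fix (hI w) (hz w s hs)) t
  refine (Set.finite_range fun x : (𝟙_ T)⟦t⟧ ⟶ F.L.obj M =>
    κ.κ (𝟙_ T) t (x ≫ F.L.map (λ_ M).inv) ≫ F.L.map (λ_ C).hom).subset ?_
  rintro _ ⟨y, rfl⟩
  obtain ⟨x, hx⟩ := κ.surj (𝟙_ T) t ((f⟦t⟧' ≫ y) ≫ F.L.map (λ_ C).inv) (by
    rw [← Category.assoc, comp_comp_eq hf hμ])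
  refine ⟨x ≫ F.L.map (λ_ M).hom, ?_⟩
  dsimp only
  rw [Category.assoc, ← F.L.map_comp, Iso.hom_inv_id, F.L.map_id, Category.comp_id, hx,
    Category.assoc, ← F.L.map_comp, Iso.inv_hom_id, F.L.map_id, Category.comp_id]

/-- **`f` is small for `L C`.** -/
theorem sm_of_model (D : MUData T) (U : UnitCof D.R) {p : ℤ} {h : ℕ} {v : ℕ → (𝟙_ T ⟶ D.P)}
    (Dk : KosData D.P p h v) (F : LocFunctor Dk.K) {C : T} {i : 𝟙_ T ⟶ C}
    {δ : C ⟶ (𝟙_ T)⟦(1 : ℤ)⟧} (hC : Triangle.mk (p • 𝟙 (𝟙_ T)) i δ ∈ distTriang T) {Y : T}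
    (hY : Dl.Fn Y) (f : End Y) {μ : ℤ} (hf : f * f = μ • f) (hμ : p ^ 2 ∣ μ - 1)
    {Tw : ℤ → TowerCx.{w}}
    (Φ : ∀ w, U.CobModel (𝟙_ T) (tensorRight C ⋙ F.L) Y w (Tw w)) (E : ∀ w, TwEnd (Tw w))
    (hE : ∀ w, Eqv (Φ w) f (E w))
    (hodd : ∀ (s : ℕ) (t : ℤ), Odd t →
      ∀ x : Y⟦t⟧ ⟶ (tensorRight C ⋙ F.L).obj (U.cobar.Q (s + 1) (𝟙_ T)), x = 0)
    (hsurj : ∀ w s j, Function.Surjective ((Tw w).r s j)) (hb : ∀ w s, (E w).Bd s) {s₀ : ℕ}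
    (hz : ∀ w s, s₀ ≤ s → (E w).PZ s) : Dl.Sm (F.L.obj C) f := by
  refine sm_of_finite f (finite_img D U Dk F C (thick_of_fn hY) f hf ?_ Φ E hE hodd hsurj hb hz)
  obtain ⟨a, ha⟩ := hμ
  have h1 : μ = 1 + a * (p * p) := by linear_combination ha
  rw [h1, add_smul, one_smul, mul_smul, mul_smul, sq_smul_cofibre hC, smul_zero, add_zero]

end Vale.Agent.P261Z.X
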