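import Vale.Agent.P261Z.X.Defs

/-!
# P261, block X: the monomial basis of `Tr N ι M`; group actions

`cf t`: the coefficient of the monomial `mon t`. Consequences: `Tr T ι M` is framed, discrete,
without cohomology, and has a basis of invariants if `T` has these properties.
-/

open Vale.Agent.P251 Vale.Agent.P251.F Vale.Agent.P251.S Vale.Agent.P251.C Vale.Agent.P251.M
  Vale.Agent.P261Z.T2 Vale.Agent.P261Z.T1

namespace Vale.Agent.P261Z.X

section basis

variable {N N' : Type} [CommRing N] [CommRing N'] {ι : Type} [Fintype ι] {M : ℕ}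

/-- the exponent of a monomial -/
noncomputable def ex (t : ι → Fin M) : ι →₀ ℕ := Finsupp.equivFunOnFinite.symm fun b => (t b : ℕ)

theorem ex_apply (t : ι → Fin M) (b : ι) : ex t b = t b := rfl

theorem ex_injective : Function.Injective (ex : (ι → Fin M) → ι →₀ ℕ) := fun t t' h =>
  funext fun b => Fin.ext (by rw [← ex_apply, h, ex_apply])

theorem coeff_trI (t : ι → Fin M) {f : MvPolynomial ι N} (hf : f ∈ trI N ι M) :
    f.coeff (ex t) = 0 := by
  classical
  have key : ∀ g : MvPolynomial ι N, (g * f).coeff (ex t) = 0 := by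
    refine Submodule.span_induction (p := fun f _ => ∀ g : MvPolynomial ι N,
      (g * f).coeff (ex t) = 0) ?_ ?_ ?_ ?_ hf
    · rintro _ ⟨b, rfl⟩ g
      beta_reduce
      rw [MvPolynomial.X_pow_eq_monomial, MvPolynomial.coeff_mul_monomial', if_neg]
      intro h
      have h1 := h b
      rw [Finsupp.single_eq_same, ex_apply] at h1
      exact absurd (t b).2 (not_lt.2 h1)
    · intro g
      rw [mul_zero, MvPolynomial.coeff_zero]
    · intro a b _ _ ha hb g
      rw [mul_add, MvPolynomial.coeff_add, ha, hb, add_zero]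
    · intro a b _ hb g
      rw [smul_eq_mul, ← mul_assoc, hb]
  rw [← one_mul f, key]

/-- The coefficient of a monomial. -/
noncomputable def cf (t : ι → Fin M) : Tr N ι M →+ N :=
  QuotientAddGroup.lift (trI N ι M).toAddSubgroup (MvPolynomial.coeffAddMonoidHom (ex t))
    fun _ hf => coeff_trI t hf

theorem cf_mk (t : ι → Fin M) (f : MvPolynomial ι N) : cf t (Tr.mk f) = f.coeff (ex t) := rfl

theorem mk_monomial (t : ι → Fin M) (a : N) :
    Tr.mk (MvPolynomial.monomial (ex t) a) = Tr.C ι M a * Tr.mon N t := by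
  rw [MvPolynomial.monomial_eq, map_mul, Finsupp.prod_fintype _ _ (fun _ => pow_zero _), map_prod]
  simp only [map_pow]
  rfl

theorem cf_C_mul (t : ι → Fin M) (a : N) (x : Tr N ι M) : cf t (Tr.C ι M a * x) = a * cf t x := by
  obtain ⟨f, rfl⟩ := Tr.mk_surjective x
  change cf t (Tr.mk (MvPolynomial.C a) * Tr.mk f) = _
  rw [← map_mul, cf_mk, cf_mk, MvPolynomial.coeff_C_mul]

variable [DecidableEq ι]

theorem cf_mon (t t' : ι → Fin M) (a : N) :
    cf t (Tr.C ι M a * Tr.mon N t') = if t' = t then a else 0 := by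
  rw [← mk_monomial, cf_mk, MvPolynomial.coeff_monomial]
  simp only [ex_injective.eq_iff]

theorem cf_sum (t : ι → Fin M) (a : (ι → Fin M) → N) :
    cf t (∑ t', Tr.C ι M (a t') * Tr.mon N t') = a t := by
  simp only [map_sum, cf_mon, Finset.sum_ite_eq', Finset.mem_univ, if_true]

theorem sum_cf (x : Tr N ι M) : ∑ t, Tr.C ι M (cf t x) * Tr.mon N t = x := by
  obtain ⟨f, rfl⟩ := Tr.mk_surjective x
  induction f using MvPolynomial.induction_on' with
  | monomial m a =>
    by_cases h : ∀ b, m b < M
    · have e : m = ex fun b => (⟨m b, h b⟩ : Fin M) := Finsupp.ext fun _ => rfl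
      rw [e, mk_monomial]
      simp only [cf_mon]
      rw [Finset.sum_eq_single fun b => (⟨m b, h b⟩ : Fin M), if_pos rfl]
      · intro t _ ht
        rw [if_neg ht.symm, map_zero, zero_mul]
      · exact fun h => absurd (Finset.mem_univ _) h
    · obtain ⟨b, hb⟩ := not_forall.1 h
      have e : (Tr.mk (MvPolynomial.monomial m a) : Tr N ι M) = 0 := by
        obtain ⟨m', rfl⟩ : ∃ m', m = m' + Finsupp.single b M :=
          ⟨m - Finsupp.single b M, (tsub_add_cancel_of_le
            (Finsupp.single_le_iff.2 (not_lt.1 hb))).symm⟩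
        rw [MvPolynomial.monomial_add_single, map_mul, map_pow]
        exact mul_eq_zero_of_right _ (Tr.x_pow b)
      simp only [e, map_zero, zero_mul, Finset.sum_const_zero]
  | add f g hf hg =>
    simp only [map_add, add_mul, Finset.sum_add_distrib, hf, hg]

theorem cf_ext {x y : Tr N ι M} (h : ∀ t, cf t x = cf t y) : x = y := by
  rw [← sum_cf x, ← sum_cf y]
  simp only [h]

omit [DecidableEq ι] in
theorem map_mon (φ : N →+* N') (t : ι → Fin M) : Tr.map ι M φ (Tr.mon N t) = Tr.mon N' t :=
  Tr.mapP_mon φ 1 t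

theorem cf_map (φ : N →+* N') (t : ι → Fin M) (x : Tr N ι M) :
    cf t (Tr.map ι M φ x) = φ (cf t x) := by
  conv_lhs => rw [← sum_cf x]
  simp only [map_sum (Tr.map ι M φ), map_mul, Tr.mapP_C, map_mon, cf_sum]

theorem map_surjective {φ : N →+* N'} (h : Function.Surjective φ) :
    Function.Surjective (Tr.map ι M φ) := by
  intro y
  choose a ha using fun t => h (cf t y)
  refine ⟨∑ t, Tr.C ι M (a t) * Tr.mon N t, cf_ext fun t => ?_⟩
  rw [cf_map, cf_sum, ha]

end basis

section act

variable {G : Type} [Group G] {T : Type} [CommRing T] [MulSemiringAction G T] {ι : Type}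
  {M : ℕ}

noncomputable instance [LawRing T] [Framed T] : Framed (Tr T ι M) where
  fr := InvSeries.map (Tr.C ι M) Framed.fr
  map_act_fr g x := by
    rw [InvSeries.map_map, InvSeries.map_map, Tr.act_comp_C, Framed.map_act_fr]

variable [Fintype ι] [DecidableEq ι]

theorem cf_smul (g : G) (t : ι → Fin M) (x : Tr T ι M) : cf t (g • x) = g • cf t x :=
  cf_map _ t x

omit [DecidableEq ι] in
theorem smul_C_mon (g : G) (t : ι → Fin M) (a : T) :
    g • (Tr.C ι M a * Tr.mon T t) = Tr.C ι M (g • a) * Tr.mon T t := by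
  rw [smul_tr, map_mul, Tr.mapP_C, map_mon]
  rfl

theorem smul_eq_iff (g : G) (x : Tr T ι M) : g • x = x ↔ ∀ t, g • cf t x = cf t x :=
  ⟨fun h t => by rw [← cf_smul, h], fun h => cf_ext fun t => by rw [cf_smul, h]⟩

instance [TopologicalSpace G] [DiscMod G T] : DiscMod G (Tr T ι M) where
  isOpen_stab x := by
    have h : {g : G | g • x = x} = ⋂ t, {g : G | g • cf t x = cf t x} := by
      ext g
      simp only [Set.mem_iInter, Set.mem_ofPred_eq, smul_eq_iff]
    rw [h]
    exact isOpen_iInter_of_finite fun t => DiscMod.isOpen_stab _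

variable (G) in
/-- the coefficient as a `G`-map -/
noncomputable def cfG (t : ι → Fin M) : Tr T ι M →+[G] T where
  toFun := cf t
  map_smul' g x := cf_smul g t x
  map_zero' := map_zero _
  map_add' := map_add _

variable (G) in
/-- the monomial as a `G`-map -/
noncomputable def monG (t : ι → Fin M) : T →+[G] Tr T ι M where
  toFun a := Tr.C ι M a * Tr.mon T t
  map_smul' g a := (smul_C_mon g t a).symm
  map_zero' := by rw [map_zero, zero_mul]
  map_add' a b := by rw [map_add, add_mul]

theorem hzero_tr [TopologicalSpace G] {s : ℕ} (h : HZero G T s) : HZero G (Tr T ι M) s := by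
  intro F hF hd
  have hY : ∀ t : ι → Fin M, ∃ Y : (Fin s → G) → T, IsCoch G Y ∧ dd Y = fun x => cf t (F x) := by
    intro t
    refine h (fun x => cf t (F x)) (hF.map (cfG G t)) ?_
    have h1 := dd_mapG (cfG G t) F
    rw [hd] at h1
    exact h1.trans (funext fun x => map_zero (cfG G t))
  choose Y hYc hYd using hY
  refine ⟨∑ t, (fun x => monG G t (Y t x)), isCoch_sum _ _ fun t _ => (hYc t).map (monG G t), ?_⟩
  rw [dd_sum]
  funext x
  rw [Finset.sum_apply, ← sum_cf (F x)]
  refine Finset.sum_congr rfl fun t _ => ?_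
  rw [dd_mapG, hYd]
  rfl

theorem invBasis_tr [LawRing T] {N I : Type} [CommRing N] [Fintype I] {φ : N →+* T} {b : I → T}
    {i₀ : I} (h : InvBasis G φ b i₀) :
    InvBasis G (Tr.map ι M φ) (fun i => Tr.C ι M (b i)) i₀ where
  one := by rw [h.one, map_one]
  const B _ g x i := (RingHom.congr_fun (Tr.act_comp_C g x) (b i)).trans (h.const B g _ i)
  fix γ n := (smul_eq_iff γ _).2 fun t => by rw [cf_map, h.fix]
  exist y hy := by
    choose a ha using fun t => h.exist (cf t y) fun γ => (smul_eq_iff γ y).1 (hy γ) t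
    refine ⟨fun i => ∑ t, Tr.C ι M (a t i) * Tr.mon N t, cf_ext fun t => ?_⟩
    rw [map_sum, ha t]
    exact Finset.sum_congr rfl fun i _ => by rw [cf_C_mul, cf_map, cf_sum]
  uniq n hn := by
    funext i
    refine cf_ext fun t => ?_
    have h1 := congrArg (cf t) hn
    simp only [map_sum (cf t), cf_C_mul, cf_map, map_zero] at h1
    rw [congrFun (h.uniq (fun i => cf t (n i)) h1) i, Pi.zero_apply, Pi.zero_apply, map_zero]

end act

end Vale.Agent.P261Z.X
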