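import Vale.Agent.P251.S.Tel

/-!
# P261, block T2 (base): idempotents split

In a pretriangulated category with countable coproducts every idempotent splits (telescope).
-/

open CategoryTheory Limits Pretriangulated

universe v u

namespace Vale.Agent.P261Z.X

open Vale.Agent.P251.S

variable {C : Type u} [Category.{v} C] [Preadditive C] [HasZeroObject C]
  [HasShift C ℤ] [∀ n : ℤ, (shiftFunctor C n).Additive] [Pretriangulated C]

/-- Idempotents split. -/
theorem split_idem {X : C} [HasCoproduct fun _ : ℕ => X] (e : X ⟶ X) (he : e ≫ e = e) :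
    ∃ (Z : C) (i : Z ⟶ X) (r : X ⟶ Z), i ≫ r = 𝟙 Z ∧ r ≫ i = e := by
  obtain ⟨T⟩ := exists_tel (X := fun _ : ℕ => X) (fun _ => e)
  let ρ : (∐ fun _ : ℕ => X) ⟶ ∐ fun _ : ℕ => X := Sigma.desc fun n =>
    (𝟙 X - e) ≫ Sigma.ι (fun _ : ℕ => X) n -
      ∑ k ∈ Finset.range n, e ≫ Sigma.ι (fun _ : ℕ => X) k
  have hρ : sigmaSub (X := fun _ : ℕ => X) (fun _ => e) ≫ ρ = 𝟙 _ := by
    apply Sigma.hom_ext
    intro n
    have h1 : e ≫ (𝟙 X - e) = 0 := by rw [Preadditive.comp_sub, Category.comp_id, he, sub_self]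
    rw [← Category.assoc, ι_sigmaSub, Preadditive.sub_comp, Category.assoc, Sigma.ι_desc,
      Sigma.ι_desc, Preadditive.comp_sub, ← Category.assoc, h1, zero_comp, Preadditive.comp_sum,
      Finset.sum_range_succ, Preadditive.sub_comp, Category.id_comp, Category.comp_id]
    simp only [← Category.assoc, he]
    abel
  have hδ : T.δ = 0 := by
    have h1 := congrArg (· ≫ ρ⟦(1 : ℤ)⟧') T.δ_sigmaSub
    simp only [Category.assoc, zero_comp] at h1
    rwa [← Functor.map_comp, hρ, CategoryTheory.Functor.map_id, Category.comp_id] at h1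
  have h1 : ∀ n, e ≫ T.ι n = T.ι n := fun n => by
    rw [← T.w n, ← Category.assoc, he]
  have h2 : ∀ n, T.ι n = T.ι 0 := fun n => by
    induction n with
    | zero => rfl
    | succ n ih => rw [← h1 (n + 1), T.w n, ih]
  obtain ⟨i, hi⟩ := T.exists_desc (fun _ => e) (fun _ => he)
  refine ⟨T.obj, i, T.ι 0, ?_, hi 0⟩
  obtain ⟨y, hy⟩ := T.exists_of_ι_comp_eq_zero (i ≫ T.ι 0 - 𝟙 _) (fun n => by
    rw [Preadditive.comp_sub, ← Category.assoc, hi n, h1, Category.comp_id, h2 n, sub_self])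
  rw [hδ, zero_comp] at hy
  exact sub_eq_zero.1 hy

end Vale.Agent.P261Z.X
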