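import Vale.Agent.P261Z.X.Dual
import Vale.Agent.P261Z.X.Split
import Vale.Agent.P251.S.LocMod

/-!
# P261, block T2 (base): the summand cut out by an idempotent

If `Y` is finite and `f : Y ⟶ Y` acts as an idempotent on the maps to objects `Q ⊗ C`, then there
is an object `M` with `π_t L (Q ⊗ M) = {y : Y⟦t⟧ ⟶ L (Q ⊗ C) | f y = y}`, naturally in `Q`.
-/

open CategoryTheory MonoidalCategory Limits Pretriangulated

set_option linter.unusedSectionVars false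

universe v u

namespace Vale.Agent.P261Z.X

open Vale.Agent.P251.T Vale.Agent.P251.S

variable {T : Type u} [Category.{v} T] [Preadditive T] [HasZeroObject T] [HasShift T ℤ]
  [∀ n : ℤ, (shiftFunctor T n).Additive] [Pretriangulated T]
  [MonoidalCategory T] [SymmetricCategory T] [TensorTriangulated T]

/-- The homotopy of `L (Q ⊗ M)` is the part of `Hom (Y⟦t⟧, L (Q ⊗ C))` fixed by `f`. -/
structure Cut (L : T ⥤ T) (C : T) {Y : T} (f : Y ⟶ Y) (M : T) where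
  /-- the comparison map -/
  κ : ∀ (Q : T) (t : ℤ), ((𝟙_ T)⟦t⟧ ⟶ L.obj (Q ⊗ M)) →+ (Y⟦t⟧ ⟶ L.obj (Q ⊗ C))
  inj : ∀ Q t, Function.Injective (κ Q t)
  fix : ∀ Q t x, f⟦t⟧' ≫ κ Q t x = κ Q t x
  surj : ∀ Q t (y : Y⟦t⟧ ⟶ L.obj (Q ⊗ C)), f⟦t⟧' ≫ y = y → ∃ x, κ Q t x = y
  nat : ∀ {Q Q' : T} (m : Q ⟶ Q') (t : ℤ) (x : (𝟙_ T)⟦t⟧ ⟶ L.obj (Q ⊗ M)),
    κ Q' t (x ≫ L.map (m ▷ M)) = κ Q t x ≫ L.map (m ▷ C)

namespace Ct

variable {Y DY : T} {ev : DY ⊗ Y ⟶ 𝟙_ T}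

theorem exists_mate (h : IsDual ev) (f : Y ⟶ Y) : ∃ g : DY ⟶ DY, ∀ (A W : T) (x : A ⟶ W ⊗ DY),
    nu ev A W (x ≫ W ◁ g) = A ◁ f ≫ nu ev A W x := by
  obtain ⟨g, hg⟩ := (h DY (𝟙_ T)).2 (DY ◁ f ≫ ev)
  have h1 : (g ≫ (λ_ DY).hom) ▷ Y ≫ ev = DY ◁ f ≫ ev := by
    rw [← hg, nu_apply, ← unitors_equal, leftUnitor_naturality]
    monoidal
  refine ⟨g ≫ (λ_ DY).hom, fun A W x => ?_⟩
  generalize g ≫ (λ_ DY).hom = g' at h1
  rw [nu_apply, nu_apply, comp_whiskerRight, Category.assoc, associator_naturality_middle_assoc,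
    ← whiskerLeft_comp_assoc, h1, whisker_exchange_assoc, associator_naturality_right_assoc,
    whiskerLeft_comp_assoc]

theorem tensLoc (h : IsDual ev) (K : T) : TensLoc K DY := by
  intro Z hZ W hW x
  apply (h W Z).1
  rw [map_zero]
  exact hZ (hW.tensor_right Y) _

variable {K : T} (F : LocFunctor K)

/-- `Hom (A, L (X ⊗ DY)) → Hom (A ⊗ Y, L X)` -/
noncomputable def psi (h : IsDual ev) (A X : T) :
    (A ⟶ F.L.obj (X ⊗ DY)) →+ (A ⊗ Y ⟶ F.L.obj X) :=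
  (nu ev A (F.L.obj X)).comp (Preadditive.rightComp A (F.tensIso (tensLoc h K) X).hom)

theorem psi_apply (h : IsDual ev) {A X : T} (x : A ⟶ F.L.obj (X ⊗ DY)) :
    psi F h A X x = nu ev A (F.L.obj X) (x ≫ (F.tensIso (tensLoc h K) X).hom) := rfl

theorem psi_bijective (h : IsDual ev) (A X : T) : Function.Bijective (psi F h A X) := by
  constructor
  · intro x y hxy
    exact (cancel_mono _).1 ((h A _).1 hxy)
  · intro y
    obtain ⟨x, hx⟩ := (h A _).2 y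
    refine ⟨x ≫ (F.tensIso (tensLoc h K) X).inv, ?_⟩
    rw [psi_apply, Category.assoc, Iso.inv_hom_id, Category.comp_id, hx]

theorem psi_nat (h : IsDual ev) {A X X' : T} (x : A ⟶ F.L.obj (X ⊗ DY)) (m : X ⟶ X') :
    psi F h A X' (x ≫ F.L.map (m ▷ DY)) = psi F h A X x ≫ F.L.map m := by
  rw [psi_apply, psi_apply, Category.assoc, F.tensIso_naturality, ← Category.assoc, nu_right]

theorem psi_mate (h : IsDual ev) {f : Y ⟶ Y} {g : DY ⟶ DY}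
    (hg : ∀ (A W : T) (x : A ⟶ W ⊗ DY), nu ev A W (x ≫ W ◁ g) = A ◁ f ≫ nu ev A W x)
    {A X : T} (x : A ⟶ F.L.obj (X ⊗ DY)) :
    psi F h A X (x ≫ F.L.map (X ◁ g)) = A ◁ f ≫ psi F h A X x := by
  have h1 : F.L.map (X ◁ g) ≫ (F.tensIso (tensLoc h K) X).hom =
      (F.tensIso (tensLoc h K) X).hom ≫ F.L.obj X ◁ g := by
    apply F.hom_ext (tensLoc h K (F.isLocal X))
    rw [LocFunctor.u_naturality_assoc, LocFunctor.u_tensIso, LocFunctor.u_tensIso_assoc,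
      whisker_exchange]
  rw [psi_apply, psi_apply, Category.assoc, h1, ← Category.assoc, hg]

end Ct

/-- **The summand cut out by `f`.** -/
theorem exists_cut [MonoidalClosed T] [HasCoproducts.{0} T] {K : T} (F : LocFunctor K) (C : T)
    {Y : T} (hY : Thick Y) (f : Y ⟶ Y) {μ : ℤ} (hf : f ≫ f = μ • f) (hμ : μ • 𝟙 C = 𝟙 C) :
    ∃ M : T, Nonempty (Cut F.L C f M) := by
  obtain ⟨DY, ev, h⟩ := hY.exists_dual
  obtain ⟨g, hg⟩ := Ct.exists_mate h f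
  have hgg : C ◁ g ≫ C ◁ g = C ◁ g := by
    apply (h (C ⊗ DY) C).1
    have h1 := hg (C ⊗ DY) C (𝟙 _)
    rw [Category.id_comp] at h1
    have h2 : (C ⊗ DY) ◁ (μ • f) = μ • (C ⊗ DY) ◁ f := (tensorLeft (C ⊗ DY)).map_zsmul
    rw [hg, h1, ← whiskerLeft_comp_assoc, hf, h2, Preadditive.zsmul_comp,
      ← Category.comp_id ((C ⊗ DY) ◁ f ≫ _), ← Preadditive.comp_zsmul, hμ]
  obtain ⟨M, i, r, hir, hri⟩ := split_idem (C ◁ g) hgg
  let ins : ∀ Q : T, Q ⊗ M ⟶ (Q ⊗ C) ⊗ DY := fun Q => Q ◁ i ≫ (α_ Q C DY).inv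
  let prj : ∀ Q : T, (Q ⊗ C) ⊗ DY ⟶ Q ⊗ M := fun Q => (α_ Q C DY).hom ≫ Q ◁ r
  have h1 : ∀ Q, ins Q ≫ prj Q = 𝟙 _ := fun Q => by
    simp only [ins, prj, Category.assoc, Iso.inv_hom_id_assoc]
    rw [← whiskerLeft_comp, hir, whiskerLeft_id]
  have h2 : ∀ Q, prj Q ≫ ins Q = (Q ⊗ C) ◁ g := fun Q => by
    simp only [ins, prj, Category.assoc]
    rw [← whiskerLeft_comp_assoc, hri, tensor_whiskerLeft]
  have h3 : ∀ {Q Q' : T} (m : Q ⟶ Q'), m ▷ M ≫ ins Q' = ins Q ≫ (m ▷ C) ▷ DY := fun m => by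
    simp only [ins, Category.assoc]
    rw [← whisker_exchange_assoc, associator_inv_naturality_left]
  let κ : ∀ (Q : T) (t : ℤ), ((𝟙_ T)⟦t⟧ ⟶ F.L.obj (Q ⊗ M)) →+ (Y⟦t⟧ ⟶ F.L.obj (Q ⊗ C)) :=
    fun Q t => (Preadditive.leftComp _ (sphTensor t Y).inv).comp
      ((Ct.psi F h _ (Q ⊗ C)).comp (Preadditive.rightComp _ (F.L.map (ins Q))))
  have hκ : ∀ Q t x, κ Q t x =
      (sphTensor t Y).inv ≫ Ct.psi F h _ (Q ⊗ C) (x ≫ F.L.map (ins Q)) := fun _ _ _ => rfl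
  have hs : ∀ t : ℤ, f⟦t⟧' ≫ (sphTensor t Y).inv = (sphTensor t Y).inv ≫ ((𝟙_ T)⟦t⟧) ◁ f :=
    fun t => by rw [Iso.comp_inv_eq, Category.assoc, sphTensor_naturality, Iso.inv_hom_id_assoc]
  refine ⟨M, ⟨⟨κ, fun Q t x y hxy => ?_, fun Q t x => ?_, fun Q t y hy => ?_,
    fun {Q Q'} m t x => ?_⟩⟩⟩
  · rw [hκ, hκ, cancel_epi] at hxy
    have h4 := congrArg (· ≫ F.L.map (prj Q)) ((Ct.psi_bijective F h _ _).1 hxy)
    simpa only [Category.assoc, ← F.L.map_comp, h1, F.L.map_id, Category.comp_id] using h4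
  · rw [hκ, ← Category.assoc, hs, Category.assoc, ← Ct.psi_mate F h hg, Category.assoc,
      ← F.L.map_comp, ← h2, ← Category.assoc (ins Q), h1, Category.id_comp]
  · obtain ⟨x, hx⟩ := (Ct.psi_bijective F h ((𝟙_ T)⟦t⟧) (Q ⊗ C)).2 ((sphTensor t Y).hom ≫ y)
    refine ⟨x ≫ F.L.map (prj Q), ?_⟩
    rw [hκ, Category.assoc, ← F.L.map_comp, h2, Ct.psi_mate F h hg, hx, ← Category.assoc, ← hs,
      Category.assoc, Iso.inv_hom_id_assoc, hy]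
  · rw [hκ, hκ, Category.assoc, ← F.L.map_comp, h3, F.L.map_comp, ← Category.assoc x,
      Ct.psi_nat, Category.assoc]

end Vale.Agent.P261Z.X
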