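import Vale.Agent.P251.S.Conv4
import Vale.Agent.P251.S.TensorShift
import Mathlib.CategoryTheory.Monoidal.Rigid.Basic
import Mathlib.CategoryTheory.Triangulated.Subcategory

/-!
# P261, block T2 (base): finite objects have duals

* `Thick Y`: `Y` lies in every triangulated subcategory containing the unit;
* `nu ev A W : (A ⟶ W ⊗ DY) →+ (A ⊗ Y ⟶ W)`, `IsDual ev`: all these maps are bijective;
* `exists_dual`, `IsDual.exactPairing`.
-/

open CategoryTheory MonoidalCategory Limits Pretriangulated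

set_option linter.unusedSectionVars false

universe v u

namespace Vale.Agent.P261Z.X

open Vale.Agent.P251.T Vale.Agent.P251.S

variable {T : Type u} [Category.{v} T] [Preadditive T] [HasZeroObject T] [HasShift T ℤ]
  [∀ n : ℤ, (shiftFunctor T n).Additive] [Pretriangulated T]
  [MonoidalCategory T] [SymmetricCategory T] [TensorTriangulated T]

/-- `Y` lies in the smallest triangulated subcategory which contains the unit. -/
def Thick (Y : T) : Prop :=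
  ∀ P : ObjectProperty T, P.IsTriangulated → P.IsClosedUnderIsomorphisms → P (𝟙_ T) → P Y

theorem Thick.one : Thick (𝟙_ T) := fun _ _ _ h => h

theorem Thick.of_iso {Y Y' : T} (e : Y ≅ Y') (h : Thick Y) : Thick Y' :=
  fun P h1 h2 h3 => P.prop_of_iso e (h P h1 h2 h3)

theorem Thick.of_isZero {Y : T} (h : IsZero Y) : Thick Y :=
  fun P _ _ _ => P.prop_of_isZero h

theorem Thick.shift {Y : T} (h : Thick Y) (n : ℤ) : Thick (Y⟦n⟧) :=
  fun P h1 h2 h3 => P.le_shift n _ (h P h1 h2 h3)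

theorem Thick.ext₁ {Δ : Triangle T} (hΔ : Δ ∈ distTriang T) (h2 : Thick Δ.obj₂)
    (h3 : Thick Δ.obj₃) : Thick Δ.obj₁ :=
  fun P a b c => P.ext_of_isTriangulatedClosed₁ Δ hΔ (h2 P a b c) (h3 P a b c)

theorem Thick.ext₂ {Δ : Triangle T} (hΔ : Δ ∈ distTriang T) (h1 : Thick Δ.obj₁)
    (h3 : Thick Δ.obj₃) : Thick Δ.obj₂ :=
  fun P a b c => P.ext_of_isTriangulatedClosed₂ Δ hΔ (h1 P a b c) (h3 P a b c)

theorem Thick.ext₃ {Δ : Triangle T} (hΔ : Δ ∈ distTriang T) (h1 : Thick Δ.obj₁)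
    (h2 : Thick Δ.obj₂) : Thick Δ.obj₃ :=
  fun P a b c => P.ext_of_isTriangulatedClosed₃ Δ hΔ (h1 P a b c) (h2 P a b c)

/-- The map `Hom (A, W ⊗ DY) → Hom (A ⊗ Y, W)` of an evaluation `DY ⊗ Y ⟶ 𝟙`. -/
def nu {Y DY : T} (ev : DY ⊗ Y ⟶ 𝟙_ T) (A W : T) : (A ⟶ W ⊗ DY) →+ (A ⊗ Y ⟶ W) :=
  AddMonoidHom.mk' (fun g => g ▷ Y ≫ (α_ W DY Y).hom ≫ W ◁ ev ≫ (ρ_ W).hom) (fun a b => by
    rw [MonoidalPreadditive.add_whiskerRight, Preadditive.add_comp])

section nu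

variable {Y DY : T} (ev : DY ⊗ Y ⟶ 𝟙_ T)

theorem nu_apply {A W : T} (g : A ⟶ W ⊗ DY) :
    nu ev A W g = g ▷ Y ≫ (α_ W DY Y).hom ≫ W ◁ ev ≫ (ρ_ W).hom := rfl

theorem nu_left {A A' W : T} (a : A' ⟶ A) (g : A ⟶ W ⊗ DY) :
    nu ev A' W (a ≫ g) = a ▷ Y ≫ nu ev A W g := by
  rw [nu_apply, nu_apply, comp_whiskerRight, Category.assoc]

theorem nu_right {A W W' : T} (g : A ⟶ W ⊗ DY) (m : W ⟶ W') :
    nu ev A W' (g ≫ m ▷ DY) = nu ev A W g ≫ m := by
  rw [nu_apply, nu_apply, comp_whiskerRight, Category.assoc, associator_naturality_left_assoc,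
    ← whisker_exchange_assoc, rightUnitor_naturality]
  simp only [Category.assoc]

theorem nu_tensor (S : T) {A W : T} (g : A ⟶ W ⊗ DY) :
    nu ev (S ⊗ A) (S ⊗ W) (S ◁ g ≫ (α_ S W DY).inv) = (α_ S A Y).hom ≫ S ◁ nu ev A W g := by
  rw [nu_apply, nu_apply]
  monoidal

/-- The evaluation exhibits `DY` as a dual of `Y`. -/
def IsDual : Prop := ∀ A W : T, Function.Bijective (nu ev A W)

namespace Du

/-- the objects `W` for which `nu` is bijective -/
def good : ObjectProperty T := fun W => ∀ A : T, Function.Bijective (nu ev A W)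

theorem bij_of_iso_left {A A' W : T} (e : A' ≅ A) (h : Function.Bijective (nu ev A' W)) :
    Function.Bijective (nu ev A W) := by
  constructor
  · intro g g' hg
    rw [← cancel_epi e.hom]
    apply h.1
    rw [nu_left, nu_left, hg]
  · intro x
    obtain ⟨g, hg⟩ := h.2 (e.hom ▷ Y ≫ x)
    refine ⟨e.inv ≫ g, ?_⟩
    rw [nu_left, hg, inv_hom_whiskerRight_assoc]

theorem good_of_iso {W W' : T} (e : W ≅ W') (h : good ev W) : good ev W' := by
  intro A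
  constructor
  · intro g g' hg
    rw [← cancel_mono (e.inv ▷ DY)]
    apply (h A).1
    rw [nu_right, nu_right, hg]
  · intro x
    obtain ⟨g, hg⟩ := (h A).2 (x ≫ e.inv)
    refine ⟨g ≫ e.hom ▷ DY, ?_⟩
    rw [nu_right, hg, Category.assoc, e.inv_hom_id, Category.comp_id]

theorem good_tensor (S : T) [(tensorLeft S).IsEquivalence] {W : T} (h : good ev W) :
    good ev (S ⊗ W) := by
  intro A
  refine bij_of_iso_left ev ((tensorLeft S).objObjPreimageIso A) ?_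
  generalize (tensorLeft S).objPreimage A = A'
  change Function.Bijective (nu ev (S ⊗ A') (S ⊗ W))
  constructor
  · rw [injective_iff_map_eq_zero]
    intro g hg
    obtain ⟨g', hg'⟩ := (tensorLeft S).map_surjective (X := A') (Y := W ⊗ DY)
      (g ≫ (α_ S W DY).hom)
    have h1 : g = S ◁ g' ≫ (α_ S W DY).inv := by
      rw [Iso.eq_comp_inv]
      exact hg'.symm
    rw [h1, nu_tensor, ← comp_zero (f := (α_ S A' Y).hom), cancel_epi] at hg
    have h2 : nu ev A' W g' = 0 := by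
      apply (tensorLeft S).map_injective
      rw [Functor.map_zero]
      exact hg
    have h3 : g' = 0 := (h A').1 (h2.trans (map_zero _).symm)
    rw [h1, h3, MonoidalPreadditive.whiskerLeft_zero, zero_comp]
  · intro x
    obtain ⟨x', hx'⟩ := (tensorLeft S).map_surjective (X := A' ⊗ Y) (Y := W)
      ((α_ S A' Y).inv ≫ x)
    obtain ⟨g, hg⟩ := (h A').2 x'
    refine ⟨S ◁ g ≫ (α_ S W DY).inv, ?_⟩
    rw [nu_tensor, hg]
    exact (congrArg ((α_ S A' Y).hom ≫ ·) hx').trans (Iso.hom_inv_id_assoc _ _)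

theorem good_shift {W : T} (h : good ev W) (n : ℤ) : good ev (W⟦n⟧) := by
  let e : tensorLeft ((𝟙_ T)⟦n⟧) ≅ shiftFunctor T n :=
    NatIso.ofComponents (fun Y => sphTensor n Y) (fun f => sphTensor_naturality n f)
  have : (tensorLeft ((𝟙_ T)⟦n⟧)).IsEquivalence := Functor.isEquivalence_of_iso e.symm
  exact good_of_iso ev (sphTensor n W) (good_tensor ev _ h)

theorem good_of_isZero {W : T} (h : IsZero W) : good ev W := by
  intro A
  have h1 : IsZero (W ⊗ DY) := (tensorRight DY).map_isZero h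
  exact ⟨fun g g' _ => h1.eq_of_tgt _ _, fun x => ⟨0, h.eq_of_tgt _ _⟩⟩

theorem good_ext {Δ : Triangle T} (hΔ : Δ ∈ distTriang T) (h1 : good ev Δ.obj₁)
    (h3 : good ev Δ.obj₃) : good ev Δ.obj₂ := by
  intro A
  constructor
  · rw [injective_iff_map_eq_zero]
    intro g hg
    have h4 : g ≫ Δ.mor₂ ▷ DY = 0 := by
      apply (h3 A).1
      rw [nu_right, hg, zero_comp, map_zero]
    obtain ⟨g₁, rfl⟩ := exR DY Δ hΔ g h4
    rw [nu_right] at hg
    obtain ⟨d, h', hI⟩ : ∃ (d : Δ.obj₃⟦(-1 : ℤ)⟧ ⟶ Δ.obj₁)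
        (h' : Δ.obj₂ ⟶ (Δ.obj₃⟦(-1 : ℤ)⟧)⟦(1 : ℤ)⟧), Triangle.mk d Δ.mor₁ h' ∈ distTriang T :=
      ⟨Δ.invRotate.mor₁, Δ.invRotate.mor₃, inv_rot_of_distTriang _ hΔ⟩
    obtain ⟨x, hx⟩ : ∃ x : A ⊗ Y ⟶ Δ.obj₃⟦(-1 : ℤ)⟧, nu ev A Δ.obj₁ g₁ = x ≫ d :=
      Triangle.coyoneda_exact₂ _ hI (nu ev A Δ.obj₁ g₁) hg
    obtain ⟨g₀, hg₀⟩ := (good_shift ev h3 (-1) A).2 x
    have h5 : g₁ = g₀ ≫ d ▷ DY := by
      apply (h1 A).1
      rw [hx, ← hg₀, nu_right]
    have h6 : d ≫ Δ.mor₁ = 0 := comp_distTriang_mor_zero₁₂ _ hI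
    rw [h5, Category.assoc, ← comp_whiskerRight, h6, MonoidalPreadditive.zero_whiskerRight,
      comp_zero]
  · intro x
    obtain ⟨g₃, hg₃⟩ := (h3 A).2 (x ≫ Δ.mor₂)
    have h4 : g₃ ≫ Δ.mor₃ ▷ DY = 0 := by
      apply (good_shift ev h1 1 A).1
      rw [nu_right, hg₃, Category.assoc, comp_distTriang_mor_zero₂₃ _ hΔ, comp_zero, map_zero]
    obtain ⟨g₂, hg₂⟩ := exR DY Δ.rotate (rot_of_distTriang _ hΔ) g₃ h4
    change A ⟶ Δ.obj₂ ⊗ DY at g₂
    change g₃ = g₂ ≫ Δ.mor₂ ▷ DY at hg₂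
    obtain ⟨x₁, hx₁⟩ := Triangle.coyoneda_exact₂ _ hΔ (x - nu ev A Δ.obj₂ g₂) (by
      rw [Preadditive.sub_comp, ← nu_right, ← hg₂, hg₃, sub_self])
    obtain ⟨g₁, hg₁⟩ := (h1 A).2 x₁
    refine ⟨g₂ + g₁ ≫ Δ.mor₁ ▷ DY, ?_⟩
    rw [map_add, nu_right, hg₁, ← hx₁, add_sub_cancel]

instance : (good ev).IsClosedUnderIsomorphisms := ⟨fun e h => good_of_iso ev e h⟩

instance : (good ev).IsStableUnderShift ℤ where
  isStableUnderShiftBy n := ⟨fun _ h => good_shift ev h n⟩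

instance : (good ev).ContainsZero := ⟨⟨_, isZero_zero T, good_of_isZero ev (isZero_zero T)⟩⟩

instance : (good ev).IsTriangulated where
  toIsTriangulatedClosed₂ := .mk' fun _ hΔ h1 h3 => good_ext ev hΔ h1 h3

/-- An exact pairing from the two cases `W = 𝟙` and `W = Y`. -/
theorem exists_pairing (h1 : good ev (𝟙_ T)) (h2 : good ev Y) :
    ∃ E : ExactPairing Y DY, E.evaluation' = ev := by
  obtain ⟨co, hco⟩ := (h2 (𝟙_ T)).2 (λ_ Y).hom
  have h3 : co ▷ Y ≫ (α_ Y DY Y).hom ≫ Y ◁ ev = (λ_ Y).hom ≫ (ρ_ Y).inv := by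
    rw [Iso.eq_comp_inv, ← hco, nu_apply]
    simp only [Category.assoc]
  refine ⟨⟨co, ev, ?_, h3⟩, rfl⟩
  apply (h1 (DY ⊗ 𝟙_ T)).1
  rw [nu_apply, nu_apply]
  calc _ = (α_ _ _ _).hom ≫ DY ◁ co ▷ Y ≫ (α_ _ _ _).inv ≫ (α_ _ _ _).inv ▷ Y ≫ (α_ _ _ _).hom ≫
        (ev ▷ (DY ⊗ Y) ≫ (𝟙_ T) ◁ ev) ≫ (ρ_ _).hom := by monoidal
    _ = (α_ _ _ _).hom ≫ DY ◁ (co ▷ Y ≫ (α_ Y DY Y).hom ≫ Y ◁ ev) ≫ (α_ _ _ _).inv ≫
        ev ▷ (𝟙_ T) ≫ (ρ_ _).hom := by
      rw [← whisker_exchange]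
      monoidal
    _ = _ := by
      rw [h3, ← rightUnitor_naturality]
      monoidal

end Du

theorem isDual_of_exactPairing (Y DY : T) [ExactPairing Y DY] : IsDual (ε_ Y DY) :=
  fun A W => (tensorRightHomEquiv A Y DY W).symm.bijective

theorem IsDual.exactPairing {ev : DY ⊗ Y ⟶ 𝟙_ T} (h : IsDual ev) :
    ∃ E : ExactPairing Y DY, E.evaluation' = ev :=
  Du.exists_pairing ev (fun A => h A _) (fun A => h A _)

end nu

section closed

variable [MonoidalClosed T]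

/-- the evaluation `ihom Y 𝟙 ⊗ Y ⟶ 𝟙` -/
noncomputable def evD (Y : T) : (ihom Y).obj (𝟙_ T) ⊗ Y ⟶ 𝟙_ T :=
  (β_ _ _).hom ≫ (ihom.ev Y).app (𝟙_ T)

theorem Du.good_one (Y : T) : Du.good (evD Y) (𝟙_ T) := by
  intro A
  have h : ∀ g : A ⟶ 𝟙_ T ⊗ (ihom Y).obj (𝟙_ T), nu (evD Y) A (𝟙_ T) g =
      (β_ A Y).hom ≫ MonoidalClosed.uncurry (g ≫ (λ_ _).hom) := by
    intro g
    rw [nu_apply, MonoidalClosed.uncurry_eq, ← BraidedCategory.braiding_naturality_left_assoc,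
      comp_whiskerRight, Category.assoc, ← unitors_equal, leftUnitor_naturality, evD]
    congr 1
    monoidal
  constructor
  · intro g g' hg
    rw [h, h, cancel_epi] at hg
    exact (cancel_mono _).1 (MonoidalClosed.uncurry_injective hg)
  · intro x
    refine ⟨MonoidalClosed.curry ((β_ A Y).inv ≫ x) ≫ (λ_ _).inv, ?_⟩
    rw [h, Category.assoc, Iso.inv_hom_id, Category.comp_id, MonoidalClosed.uncurry_curry,
      Iso.hom_inv_id_assoc]

theorem Thick.isDual {Y : T} (hY : Thick Y) : IsDual (evD Y) := by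
  obtain ⟨E, hE⟩ := Du.exists_pairing (evD Y) (Du.good_one Y)
    (hY _ inferInstance inferInstance (Du.good_one Y))
  rw [← hE]
  exact isDual_of_exactPairing Y _

/-- **Finite objects have duals.** -/
theorem Thick.exactPairing {Y : T} (hY : Thick Y) :
    Nonempty (ExactPairing Y ((ihom Y).obj (𝟙_ T))) :=
  ⟨hY.isDual.exactPairing.choose⟩

theorem Thick.exists_dual {Y : T} (hY : Thick Y) :
    ∃ (DY : T) (ev : DY ⊗ Y ⟶ 𝟙_ T), IsDual ev := ⟨_, _, hY.isDual⟩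

theorem Thick.of_finEven [IsTriangulated T] [HasCoproducts.{0} T] [HasProducts.{0} T]
    [StableCat T] {Y : T} (h : FinEven Y) : Thick Y := by
  induction h with
  | zero h => exact Thick.of_isZero h
  | sphere k => exact Thick.one.shift _
  | ext Δ hΔ _ _ h₁ h₃ => exact Thick.ext₂ hΔ h₁ h₃

end closed

end Vale.Agent.P261Z.X
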